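import Vale.Agent.P363.R.KS.Defs
import Vale.Agent.P363.R.Sob.Density

/-! Sobolev inequality `H¹(ℝ³) → L⁶(ℝ³)` for real functions given with weak gradients. -/

namespace Vale.Agent.P363.H917

open MeasureTheory Filter Topology
open Vale.Agent.P363.Stmt (R3 MemV)
open Vale.Agent.P363.R.Sob
open Vale.Agent.P363.R.KS
open scoped ContDiff ENNReal NNReal

noncomputable section

theorem finrank_R3 : Module.finrank ℝ R3 = 3 := by simp

theorem opNorm_le_sum (L : R3 →L[ℝ] ℝ) : ‖L‖ ≤ ∑ k, ‖L (dir k)‖ := by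
  refine L.opNorm_le_bound (Finset.sum_nonneg fun _ _ => norm_nonneg _) fun x => ?_
  have hx : x = ∑ k, (x k) • (dir k : R3) := by
    ext j
    simp [dir, Finset.sum_apply, Pi.single_apply]
  calc ‖L x‖ = ‖∑ k, (x k) • L (dir k)‖ := by
        conv_lhs => rw [hx]
        rw [map_sum]
        simp only [map_smul]
    _ ≤ ∑ k, ‖(x k) • L (dir k)‖ := norm_sum_le _ _
    _ ≤ ∑ k, ‖x‖ * ‖L (dir k)‖ := by
        refine Finset.sum_le_sum fun k _ => ?_
        rw [norm_smul]
        exact mul_le_mul_of_nonneg_right (EuclideanSpace.norm_eq x ▸ by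
          rw [← EuclideanSpace.norm_eq]; exact PiLp.norm_apply_le x k) (norm_nonneg _)
    _ = (∑ k, ‖L (dir k)‖) * ‖x‖ := by rw [← Finset.mul_sum, mul_comm]

/-- the constant in the Sobolev inequality. -/
def CSob : ℝ≥0 := SNormLESNormFDerivOfEqConst ℝ (volume : Measure R3) ((2 : ℝ≥0) : ℝ)

theorem sobolev_smooth {u : R3 → ℝ} (hu : ContDiff ℝ ∞ u) (hc : HasCompactSupport u) :
    eLpNorm u 6 (volume : Measure R3) ≤
      CSob * ∑ k, eLpNorm (fun x => fderiv ℝ u x (dir k)) 2 (volume : Measure R3) := by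
  have h1 := eLpNorm_le_eLpNorm_fderiv_of_eq (F := ℝ) (volume : Measure R3)
    (hu.of_le (by simp)) hc (p := 2) (p' := 6) (by norm_num) (by rw [finrank_R3]; norm_num)
    (by rw [finrank_R3]; norm_num)
  have h2 : eLpNorm (fderiv ℝ u) 2 (volume : Measure R3) ≤
      ∑ k, eLpNorm (fun x => fderiv ℝ u x (dir k)) 2 (volume : Measure R3) := by
    have hcf : Continuous (fderiv ℝ u) := hu.continuous_fderiv (by simp)
    have hcd : ∀ k : Fin 3, Continuous (fun x => fderiv ℝ u x (dir k)) := fun k =>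
      hcf.clm_apply continuous_const
    calc eLpNorm (fderiv ℝ u) 2 (volume : Measure R3)
        ≤ eLpNorm (fun x => ∑ k, ‖fderiv ℝ u x (dir k)‖) 2 (volume : Measure R3) := by
          refine eLpNorm_mono fun x => ?_
          rw [Real.norm_of_nonneg (Finset.sum_nonneg fun _ _ => norm_nonneg _)]
          exact opNorm_le_sum _
      _ = eLpNorm (∑ k, fun x => ‖fderiv ℝ u x (dir k)‖) 2 (volume : Measure R3) := by
          congr 1
      _ ≤ ∑ k, eLpNorm (fun x => ‖fderiv ℝ u x (dir k)‖) 2 (volume : Measure R3) :=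
          eLpNorm_sum_le (fun k _ => (hcd k).norm.aestronglyMeasurable) (by norm_num)
      _ = _ := by simp only [eLpNorm_norm]
  exact h1.trans (mul_le_mul' le_rfl h2)

/-- Sobolev inequality for `H¹` functions. -/
theorem sobolev {f : R3 → ℝ} {g : Fin 3 → R3 → ℝ} (h : H1 f g) :
    eLpNorm f 6 (volume : Measure R3) ≤ CSob * ∑ k, eLpNorm (g k) 2 (volume : Measure R3) := by
  obtain ⟨fn, h1, h2, h3, h4⟩ := exists_test_approx (ι := Fin 3) (b := dir) h.mem h.gmem h.wd
  have hm : ∀ n, AEStronglyMeasurable (fn n) (volume : Measure R3) := fun n =>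
    (h1 n).continuous.aestronglyMeasurable
  have hmeas : TendstoInMeasure (volume : Measure R3) fn atTop f :=
    tendstoInMeasure_of_tendsto_eLpNorm (p := 2) (by norm_num) hm h.mem.1 h3
  obtain ⟨ns, hns, hae⟩ := hmeas.exists_seq_tendsto_ae
  have hlim := Lp.eLpNorm_lim_le_liminf_eLpNorm (p := 6) (fun n => hm (ns n)) f hae
  refine hlim.trans ?_
  have hb : ∀ n, eLpNorm (fn (ns n)) 6 (volume : Measure R3) ≤
      CSob * ∑ k, (eLpNorm ((fun x => fderiv ℝ (fn (ns n)) x (dir k)) - g k) 2 volume +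
        eLpNorm (g k) 2 (volume : Measure R3)) := by
    intro n
    refine (sobolev_smooth (h1 _) (h2 _)).trans ?_
    gcongr with k
    have hcd : Continuous (fun x => fderiv ℝ (fn (ns n)) x (dir k)) :=
      ((h1 _).continuous_fderiv (by simp)).clm_apply continuous_const
    have := eLpNorm_add_le (μ := (volume : Measure R3)) (p := 2)
      (hcd.aestronglyMeasurable.sub (h.gmem k).1) (h.gmem k).1 (by norm_num)
    simpa using this
  have ht : Tendsto (fun n => CSob * ∑ k,
      (eLpNorm ((fun x => fderiv ℝ (fn (ns n)) x (dir k)) - g k) 2 volume +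
        eLpNorm (g k) 2 (volume : Measure R3))) atTop
      (𝓝 (CSob * ∑ k, (0 + eLpNorm (g k) 2 (volume : Measure R3)))) := by
    refine ENNReal.Tendsto.const_mul ?_ (Or.inr ENNReal.coe_ne_top)
    refine tendsto_finsetSum _ fun k _ => ?_
    exact ((h4 k).comp hns.tendsto_atTop).add tendsto_const_nhds
  calc _ ≤ liminf (fun n => CSob * ∑ k,
      (eLpNorm ((fun x => fderiv ℝ (fn (ns n)) x (dir k)) - g k) 2 volume +
        eLpNorm (g k) 2 (volume : Measure R3))) atTop :=
        liminf_le_liminf (Eventually.of_forall hb)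
    _ = _ := by rw [ht.liminf_eq]; simp

theorem H1.memLp_six {f : R3 → ℝ} {g : Fin 3 → R3 → ℝ} (h : H1 f g) :
    MemLp f 6 (volume : Measure R3) := by
  refine ⟨h.mem.1, (sobolev h).trans_lt ?_⟩
  refine ENNReal.mul_lt_top ENNReal.coe_lt_top ?_
  exact ENNReal.sum_lt_top.2 fun k _ => (h.gmem k).2

end

end Vale.Agent.P363.H917
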