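import Vale.Agent.P363.H917.K4Est

/-! Caccioppoli inequality on far balls and the singular part of the potential. -/

namespace Vale.Agent.P363.H917

open MeasureTheory Filter Topology Set
open Vale.Agent.P363.Stmt (R3 MemV LpR3)
open Vale.Agent.P363.R.Sob
open Vale.Agent.P363.R.KS
open scoped ContDiff ENNReal NNReal

noncomputable section

/-- product of an `H¹` function with a test function. -/
theorem H1.testMul {a : R3 → ℝ} {ga : Fin 3 → R3 → ℝ} (ha : H1 a ga) {η : R3 → ℝ} (hη : Test η) :
    H1 (fun x => η x * a x) (fun k x => grd η k x * a x + η x * ga k x) where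
  mem := by
    obtain ⟨C, hC⟩ := hη.2.exists_bound_of_continuous hη.continuous
    exact ha.mem.of_le_mul (c := C) (hη.continuous.aestronglyMeasurable.mul ha.mem.1)
      (Eventually.of_forall fun x => by
        rw [norm_mul]; exact mul_le_mul_of_nonneg_right (hC x) (norm_nonneg _))
  gmem k := by
    obtain ⟨C, hC⟩ := hη.2.exists_bound_of_continuous hη.continuous
    obtain ⟨C', hC'⟩ := (test_grd hη k).2.exists_bound_of_continuous (test_grd hη k).continuous
    have h1 : MemLp (fun x => grd η k x * a x) 2 (volume : Measure R3) :=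
      ha.mem.of_le_mul (c := C') ((test_grd hη k).continuous.aestronglyMeasurable.mul ha.mem.1)
        (Eventually.of_forall fun x => by
          rw [norm_mul]; exact mul_le_mul_of_nonneg_right (hC' x) (norm_nonneg _))
    have h2 : MemLp (fun x => η x * ga k x) 2 (volume : Measure R3) :=
      (ha.gmem k).of_le_mul (c := C) (hη.continuous.aestronglyMeasurable.mul (ha.gmem k).1)
        (Eventually.of_forall fun x => by
          rw [norm_mul]; exact mul_le_mul_of_nonneg_right (hC x) (norm_nonneg _))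
    exact h1.add h2
  wd k := by
    have := (ha.wd k).cut_smul hη.1 (ha.mem.locallyIntegrable (by norm_num))
      ((ha.gmem k).locallyIntegrable (by norm_num))
    exact this

/-- the localised function. -/
def bb (p : R3) (a : R3 → ℝ) (x : R3) : ℝ := tr cut2 p x * a x

/-- its gradient. -/
def gbb (p : R3) (a : R3 → ℝ) (ga : Fin 3 → R3 → ℝ) (k : Fin 3) (x : R3) : ℝ :=
  grd (tr cut2 p) k x * a x + tr cut2 p x * ga k x

theorem bb_h1 {a : R3 → ℝ} {ga : Fin 3 → R3 → ℝ} (ha : H1 a ga) (p : R3) :
    H1 (bb p a) (gbb p a ga) := H1.testMul ha (tr_test cut2_test p)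

theorem tr_cut2_zero {p x : R3} (h : x ∉ Metric.ball p 2) : tr (cut2 : R3 → ℝ) p x = 0 := by
  unfold tr
  apply cut2_zero
  rw [Metric.mem_ball, not_lt, dist_eq_norm] at h
  linarith

theorem grd_tr_cut2_zero {p x : R3} (h : x ∉ Metric.ball p 2) (k : Fin 3) :
    grd (tr (cut2 : R3 → ℝ) p) k x = 0 := by
  rw [grd_tr]
  apply grd_cut2_zero
  rw [Metric.mem_ball, not_lt, dist_eq_norm] at h
  linarith

theorem cacc {v : R3 → ℝ} {μ : ℝ} {a : R3 → ℝ} {ga : Fin 3 → R3 → ℝ} {v1 v2 : R3 → ℝ}
    {K δ C : ℝ} (ha : H1 a ga) (eqa : ∀ h k, H1 h k → qf v μ a ga h k = 0)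
    (hsp : ∀ x, v x = v1 x + v2 x) (m1 : MemLp v1 (3 / 2) (volume : Measure R3))
    (s1 : eLpNorm v1 (3 / 2) (volume : Measure R3) ≤ ENNReal.ofReal δ)
    (m2 : AEStronglyMeasurable v2 (volume : Measure R3))
    (b2 : ∀ᵐ x ∂(volume : Measure R3), |v2 x| ≤ K) (hδ : 0 ≤ δ)
    (hδ' : δ * (3 * (CSob : ℝ) ^ 2) ≤ 1 / 4)
    (hC : ∀ k x, |grd (cut2 : R3 → ℝ) k x| ≤ C) (p : R3) :
    ∫ x, ∑ k, gbb p a ga k x ^ 2 ≤
      (6 * C ^ 2 + 4 * (K + |μ|)) * ∫ x in Metric.ball p 2, a x ^ 2 := by
  have hb := bb_h1 ha p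
  have hη := tr_test cut2_test p
  have hh := H1.testMul hb hη
  have e0 := eqa _ _ hh
  unfold qf at e0
  set X := ∫ x, ∑ k, gbb p a ga k x ^ 2 with hX
  set J := ∫ x in Metric.ball p 2, a x ^ 2 with hJ
  have hm2 : MemLp a 2 (volume : Measure R3) := ha.mem
  have ia : Integrable (fun x => a x ^ 2) (volume : Measure R3) := hm2.integrable_sq
  -- pointwise identity
  have pt : ∀ x, ∑ k, gbb p a ga k x ^ 2 =
      (∑ k, ga k x * (grd (tr cut2 p) k x * bb p a x + tr cut2 p x * gbb p a ga k x)) +
      ∑ k, grd (tr cut2 p) k x ^ 2 * a x ^ 2 := by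
    intro x
    rw [← Finset.sum_add_distrib]
    refine Finset.sum_congr rfl fun k _ => ?_
    unfold gbb bb
    ring
  have i1 : Integrable (fun x => ∑ k, ga k x *
      (grd (tr cut2 p) k x * bb p a x + tr cut2 p x * gbb p a ga k x)) (volume : Measure R3) :=
    integrable_finsetSum _ fun k _ => (ha.gmem k).integrable_mul (hh.gmem k)
  have hcb : ∀ k x, grd (tr cut2 p) k x ^ 2 ≤ C ^ 2 := by
    intro k x
    rw [grd_tr]
    have := hC k (x - p)
    rw [← sq_abs]
    exact pow_le_pow_left₀ (abs_nonneg _) this 2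
  have pb : ∀ x, ∑ k, grd (tr cut2 p) k x ^ 2 * a x ^ 2 ≤
      3 * C ^ 2 * (Metric.ball p 2).indicator (fun x => a x ^ 2) x := by
    intro x
    by_cases hx : x ∈ Metric.ball p 2
    · rw [indicator_of_mem hx]
      calc ∑ k, grd (tr cut2 p) k x ^ 2 * a x ^ 2 ≤ ∑ k : Fin 3, C ^ 2 * a x ^ 2 :=
            Finset.sum_le_sum fun k _ => mul_le_mul_of_nonneg_right (hcb k x) (sq_nonneg _)
        _ = 3 * C ^ 2 * a x ^ 2 := by simp; ring
    · rw [indicator_of_notMem hx, mul_zero]
      refine le_of_eq (Finset.sum_eq_zero fun k _ => ?_)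
      rw [grd_tr_cut2_zero hx]; ring
  have iind : Integrable ((Metric.ball p 2).indicator fun x => a x ^ 2) (volume : Measure R3) :=
    ia.indicator measurableSet_ball
  have i2 : Integrable (fun x => ∑ k, grd (tr cut2 p) k x ^ 2 * a x ^ 2)
      (volume : Measure R3) := by
    refine Integrable.mono' (iind.const_mul (3 * C ^ 2)) ?_ ?_
    · refine (Continuous.aestronglyMeasurable ?_ : AEStronglyMeasurable
        (fun x => ∑ k, grd (tr cut2 p) k x ^ 2) _).mul ia.1 |>.congr ?_
      · exact continuous_finsetSum _ fun k _ => ((test_grd hη k).continuous.pow 2)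
      · refine Eventually.of_forall fun x => ?_
        simp only [Finset.sum_mul, Pi.mul_apply]
    · refine Eventually.of_forall fun x => ?_
      rw [Real.norm_of_nonneg (Finset.sum_nonneg fun k _ => by positivity)]
      exact pb x
  have eX : X = (∫ x, ∑ k, ga k x *
      (grd (tr cut2 p) k x * bb p a x + tr cut2 p x * gbb p a ga k x)) +
      ∫ x, ∑ k, grd (tr cut2 p) k x ^ 2 * a x ^ 2 := by
    rw [hX, ← integral_add i1 i2]
    exact integral_congr_ae (Eventually.of_forall pt)
  have B1 : ∫ x, ∑ k, grd (tr cut2 p) k x ^ 2 * a x ^ 2 ≤ 3 * C ^ 2 * J := by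
    refine (integral_mono i2 (iind.const_mul _) pb).trans (le_of_eq ?_)
    rw [integral_const_mul, integral_indicator measurableSet_ball]
  -- the potential term
  have eV : ∀ x, (v x - μ) * a x * (tr cut2 p x * bb p a x) =
      v1 x * (bb p a x * bb p a x) + (v2 x - μ) * (bb p a x * bb p a x) := by
    intro x
    rw [hsp x]
    unfold bb
    ring
  have hb6 := H1.memLp_six hb
  have j1 : Integrable (fun x => v1 x * (bb p a x * bb p a x)) (volume : Measure R3) :=
    integrable_v1 m1 hb6 hb6
  have bv2 : ∀ᵐ x ∂(volume : Measure R3), |v2 x - μ| ≤ K + |μ| := by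
    filter_upwards [b2] with x hx
    have := abs_sub (v2 x) μ
    linarith
  have j2 : Integrable (fun x => (v2 x - μ) * (bb p a x * bb p a x)) (volume : Measure R3) :=
    integrable_v2 (m2.sub aestronglyMeasurable_const) bv2 hb.mem hb.mem
  have ib : Integrable (fun x => bb p a x ^ 2) (volume : Measure R3) := hb.mem.integrable_sq
  have B2 : -∫ x, (v x - μ) * a x * (tr cut2 p x * bb p a x) ≤
      δ * (3 * (CSob : ℝ) ^ 2 * X) + (K + |μ|) * J := by
    have h1 : ∫ x, (v x - μ) * a x * (tr cut2 p x * bb p a x) =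
        (∫ x, v1 x * (bb p a x * bb p a x)) + ∫ x, (v2 x - μ) * (bb p a x * bb p a x) := by
      rw [← integral_add j1 j2]
      exact integral_congr_ae (Eventually.of_forall eV)
    have h2 : -∫ x, v1 x * (bb p a x * bb p a x) ≤ δ * (3 * (CSob : ℝ) ^ 2 * X) := by
      have h3 := v1_form hδ m1 s1 hb
      refine le_trans ?_ h3
      rw [← integral_neg]
      refine integral_mono j1.neg ?_ fun x => ?_
      · refine j1.norm.congr (Eventually.of_forall fun x => ?_)
        simp only [norm_mul, Real.norm_eq_abs]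
        rw [← abs_mul (bb p a x), abs_mul_self]; ring
      · have : -(v1 x) ≤ |v1 x| := neg_le_abs _
        simp only
        nlinarith [sq_nonneg (bb p a x)]
    have h4 : -∫ x, (v2 x - μ) * (bb p a x * bb p a x) ≤ (K + |μ|) * J := by
      rw [← integral_neg]
      have h5 : ∫ x, -((v2 x - μ) * (bb p a x * bb p a x)) ≤
          ∫ x, (K + |μ|) * (Metric.ball p 2).indicator (fun x => a x ^ 2) x := by
        refine integral_mono_ae j2.neg (iind.const_mul _) ?_
        filter_upwards [bv2] with x hx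
        have h6 : bb p a x * bb p a x ≤ (Metric.ball p 2).indicator (fun x => a x ^ 2) x := by
          by_cases hx : x ∈ Metric.ball p 2
          · rw [indicator_of_mem hx]
            have h7 : 0 ≤ tr (cut2 : R3 → ℝ) p x := cut2.nonneg
            have h8 : tr (cut2 : R3 → ℝ) p x ≤ 1 := cut2.le_one
            have h9 : bb p a x * bb p a x = tr cut2 p x * tr cut2 p x * a x ^ 2 := by
              unfold bb; ring
            rw [h9]
            have : tr (cut2 : R3 → ℝ) p x * tr cut2 p x ≤ 1 := by nlinarith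
            nlinarith [sq_nonneg (a x)]
          · rw [indicator_of_notMem hx]
            unfold bb
            rw [tr_cut2_zero hx]; simp
        have h10 : 0 ≤ bb p a x * bb p a x := mul_self_nonneg _
        have h11 : -(v2 x - μ) ≤ K + |μ| := (neg_le_abs _).trans hx
        have h12 : 0 ≤ K + |μ| := (abs_nonneg _).trans hx
        calc -((v2 x - μ) * (bb p a x * bb p a x)) = (-(v2 x - μ)) * (bb p a x * bb p a x) := by ring
          _ ≤ (K + |μ|) * (bb p a x * bb p a x) := mul_le_mul_of_nonneg_right h11 h10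
          _ ≤ _ := mul_le_mul_of_nonneg_left h6 h12
      rw [integral_const_mul, integral_indicator measurableSet_ball] at h5
      exact h5
    rw [h1]
    linarith
  have hX0 : 0 ≤ X := integral_nonneg fun x => Finset.sum_nonneg fun k _ => sq_nonneg _
  have hδX : δ * (3 * (CSob : ℝ) ^ 2 * X) ≤ 1 / 4 * X := by
    have := mul_le_mul_of_nonneg_right hδ' hX0
    linarith
  nlinarith [hX0, hδX, B1, B2, eX, e0]

/-- integral of the singular part over a ball. -/
theorem int_v1_ball {v1 : R3 → ℝ} {δ : ℝ} (hδ : 0 ≤ δ)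
    (m1 : MemLp v1 (3 / 2) (volume : Measure R3))
    (s1 : eLpNorm v1 (3 / 2) (volume : Measure R3) ≤ ENNReal.ofReal δ) {p : R3} :
    IntegrableOn v1 (slab p 2) (volume : Measure R3) ∧
      ∫ x in slab p 2, |v1 x| ≤ 4 * δ := by
  have hfin := slab_finite p 2
  have hind : MemLp ((slab p 2).indicator fun _ : R3 => (1 : ℝ)) 3 (volume : Measure R3) :=
    memLp_indicator_const 3 (measurableSet_slab p 2) 1 (Or.inr hfin.ne)
  have h1 := eLpNorm_v_mul_one m1 hind
  have h2 : eLpNorm ((slab p 2).indicator fun _ : R3 => (1 : ℝ)) 3 (volume : Measure R3) ≤ 4 := by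
    rw [eLpNorm_indicator_const (measurableSet_slab p 2) (by norm_num) (by norm_num)]
    simp only [enorm_one, one_mul]
    have h3 := volume_slab_le p 2
    have h4 : ENNReal.ofReal (32 * 2) = 64 := by norm_num
    rw [h4] at h3
    calc (volume : Measure R3) (slab p 2) ^ (1 / (3 : ℝ≥0∞).toReal)
        ≤ (64 : ℝ≥0∞) ^ (1 / (3 : ℝ≥0∞).toReal) := ENNReal.rpow_le_rpow h3 (by positivity)
      _ = 4 := by
          have : (64 : ℝ≥0∞) = 4 ^ (3 : ℝ) := by norm_num
          rw [this, ← ENNReal.rpow_mul]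
          norm_num
  have hmem : MemLp (fun x => v1 x * (slab p 2).indicator (fun _ : R3 => (1 : ℝ)) x) 1
      (volume : Measure R3) :=
    ⟨m1.1.mul hind.1, h1.trans_lt (ENNReal.mul_lt_top m1.2 hind.2)⟩
  have e : (fun x => v1 x * (slab p 2).indicator (fun _ : R3 => (1 : ℝ)) x) =
      (slab p 2).indicator v1 := by
    ext x
    by_cases hx : x ∈ slab p 2
    · rw [indicator_of_mem hx, indicator_of_mem hx, mul_one]
    · rw [indicator_of_notMem hx, indicator_of_notMem hx, mul_zero]
  rw [e] at hmem h1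
  have hint : Integrable ((slab p 2).indicator v1) (volume : Measure R3) :=
    memLp_one_iff_integrable.1 hmem
  have hon : IntegrableOn v1 (slab p 2) (volume : Measure R3) :=
    (integrable_indicator_iff (measurableSet_slab p 2)).1 hint
  refine ⟨hon, ?_⟩
  have h5 : ∫ x in slab p 2, |v1 x| = (eLpNorm ((slab p 2).indicator v1) 1
      (volume : Measure R3)).toReal := by
    rw [eLpNorm_one_eq_lintegral_enorm, ← integral_norm_eq_lintegral_enorm hint.1,
      ← integral_indicator (measurableSet_slab p 2)]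
    refine integral_congr_ae (Eventually.of_forall fun x => ?_)
    by_cases hx : x ∈ slab p 2
    · simp only [indicator_of_mem hx, Real.norm_eq_abs]
    · simp only [indicator_of_notMem hx, norm_zero]
  rw [h5]
  have h6 := ENNReal.toReal_mono (ENNReal.mul_ne_top ENNReal.ofReal_ne_top (by simp))
    (h1.trans (mul_le_mul' s1 h2))
  rw [ENNReal.toReal_mul, ENNReal.toReal_ofReal hδ] at h6
  simp only [ENNReal.toReal_ofNat] at h6
  linarith

end

end Vale.Agent.P363.H917
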