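import Vale.Agent.P363.H917.K4Test

/-! Estimates for the contradiction at infinity. -/

namespace Vale.Agent.P363.H917

open MeasureTheory Filter Topology Set
open Vale.Agent.P363.Stmt (R3 MemV LpR3)
open Vale.Agent.P363.R.Sob
open Vale.Agent.P363.R.KS
open scoped ContDiff ENNReal NNReal

noncomputable section

theorem slab_finite (p : R3) (t : ℝ) : (volume : Measure R3) (slab p t) < ⊤ :=
  (volume_slab_le p t).trans_lt ENNReal.ofReal_lt_top

theorem slab_two {p : R3} (hp : p 2 = 0) : slab p 2 = Metric.ball p 2 := by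
  unfold slab
  refine inter_eq_left.2 fun y hy => ?_
  have h1 : ‖y - p‖ < 2 := by rw [← dist_eq_norm]; exact hy
  have h2 := (abs_coord_le (y - p) 2).trans_lt h1
  simpa [hp] using h2

/-- the basic quantity. -/
def MM (C₁ t e : ℝ) : ℝ := (16 + |C₁| / 2) * t ^ 2 + |e| / (2 * t)

theorem MM_nonneg {C₁ t e : ℝ} (ht : 0 < t) : 0 ≤ MM C₁ t e := by
  unfold MM; positivity

/-- integral of `s` over a slab. -/
theorem int_slab_le {s : R3 → ℝ} (hs : MemLp s 2 (volume : Measure R3)) {p : R3} {t m C₁ e : ℝ}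
    (ht : 0 < t) (hm : 0 < m) (up : ∫ y in slab p t, s y ^ 2 ≤ m * (C₁ * t ^ 3 + e)) :
    ∫ y in slab p t, |s y| ≤ Real.sqrt m * MM C₁ t e := by
  set r := Real.sqrt m with hr
  have hr0 : 0 < r := Real.sqrt_pos.2 hm
  have hr2 : r * r = m := Real.mul_self_sqrt hm.le
  have hfin := slab_finite p t
  have i1 : IntegrableOn (fun y => s y ^ 2) (slab p t) (volume : Measure R3) :=
    hs.integrable_sq.integrableOn
  have i0 : IntegrableOn (fun y => |s y|) (slab p t) (volume : Measure R3) := by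
    have : MemLp s 1 ((volume : Measure R3).restrict (slab p t)) := by
      have : IsFiniteMeasure ((volume : Measure R3).restrict (slab p t)) := ⟨by simpa using hfin⟩
      exact (hs.restrict _).mono_exponent (by norm_num)
    exact (memLp_one_iff_integrable.1 this).abs
  have i2 : IntegrableOn (fun _ : R3 => r * t / 2) (slab p t) (volume : Measure R3) :=
    integrableOn_const hfin.ne
  have hpt : ∀ y, |s y| ≤ r * t / 2 + (1 / (2 * (r * t))) * s y ^ 2 := by
    intro y
    have hrt : 0 < r * t := by positivity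
    have h1 : 0 ≤ (|s y| - r * t) ^ 2 := sq_nonneg _
    have h2 : |s y| * (2 * (r * t)) ≤ (r * t) ^ 2 + s y ^ 2 := by
      nlinarith [sq_abs (s y)]
    have h3 : |s y| ≤ ((r * t) ^ 2 + s y ^ 2) / (2 * (r * t)) := by
      rw [le_div_iff₀ (by positivity)]; exact h2
    refine h3.trans (le_of_eq ?_)
    field_simp
  have h1 : ∫ y in slab p t, |s y| ≤
      ∫ y in slab p t, (r * t / 2 + (1 / (2 * (r * t))) * s y ^ 2) :=
    setIntegral_mono i0 (i2.add (i1.const_mul _)) hpt
  rw [integral_add i2 (i1.const_mul _), integral_const_mul, setIntegral_const] at h1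
  have hvol : (volume : Measure R3).real (slab p t) ≤ 32 * t := by
    have := ENNReal.toReal_mono ENNReal.ofReal_ne_top (volume_slab_le p t)
    rwa [ENNReal.toReal_ofReal (by positivity)] at this
  have h2 : (1 / (2 * (r * t))) * ∫ y in slab p t, s y ^ 2 ≤
      (1 / (2 * (r * t))) * (m * (|C₁| * t ^ 3 + |e|)) := by
    refine mul_le_mul_of_nonneg_left (up.trans ?_) (by positivity)
    refine mul_le_mul_of_nonneg_left ?_ hm.le
    have := le_abs_self e
    have := mul_le_mul_of_nonneg_right (le_abs_self C₁) (by positivity : 0 ≤ t ^ 3)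
    linarith
  have h3 : (volume : Measure R3).real (slab p t) • (r * t / 2) ≤ 32 * t * (r * t / 2) := by
    rw [smul_eq_mul]
    exact mul_le_mul_of_nonneg_right hvol (by positivity)
  refine h1.trans ((add_le_add h3 h2).trans (le_of_eq ?_))
  unfold MM
  rw [← hr2]
  field_simp
  ring

/-- bound for integrals of functions supported in a slab and bounded by `M |a|`. -/
theorem int_bound {a s f : R3 → ℝ} {A M t : ℝ} (hs : MemLp s 2 (volume : Measure R3))
    {p : R3} (hM : 0 ≤ M) (hA : ∀ᵐ x, |a x| ≤ A * |s x|)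
    (hf0 : ∀ y, y ∉ slab p t → f y = 0) (hf : ∀ᵐ y, |f y| ≤ M * |a y|) :
    |∫ y, f y| ≤ M * A * ∫ y in slab p t, |s y| := by
  have hfin := slab_finite p t
  have i0 : IntegrableOn (fun y => |s y|) (slab p t) (volume : Measure R3) := by
    have : MemLp s 1 ((volume : Measure R3).restrict (slab p t)) := by
      have : IsFiniteMeasure ((volume : Measure R3).restrict (slab p t)) := ⟨by simpa using hfin⟩
      exact (hs.restrict _).mono_exponent (by norm_num)
    exact (memLp_one_iff_integrable.1 this).abs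
  have i1 : Integrable ((slab p t).indicator fun y => M * A * |s y|) (volume : Measure R3) := by
    rw [integrable_indicator_iff (measurableSet_slab p t)]
    exact i0.const_mul _
  have h1 : ‖∫ y, f y‖ ≤ ∫ y, (slab p t).indicator (fun y => M * A * |s y|) y := by
    refine norm_integral_le_of_norm_le i1 ?_
    filter_upwards [hA, hf] with y h2 h3
    by_cases hy : y ∈ slab p t
    · rw [indicator_of_mem hy, Real.norm_eq_abs]
      refine h3.trans ?_
      rw [mul_assoc]
      exact mul_le_mul_of_nonneg_left h2 hM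
    · rw [indicator_of_notMem hy, hf0 y hy, norm_zero]
  rw [integral_indicator (measurableSet_slab p t), integral_const_mul] at h1
  simpa using h1

/-! ### cutoffs -/

/-- inner cutoff profile. -/
def cut1 : ContDiffBump (0 : R3) := ⟨1, 3 / 2, one_pos, by norm_num⟩

/-- outer cutoff profile. -/
def cut2 : ContDiffBump (0 : R3) := ⟨3 / 2, 7 / 4, by norm_num, by norm_num⟩

/-- translate of a function. -/
def tr (f : R3 → ℝ) (p : R3) (y : R3) : ℝ := f (y - p)

theorem tr_test {f : R3 → ℝ} (hf : Test f) (p : R3) : Test (tr f p) := by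
  constructor
  · exact hf.1.comp (contDiff_id.sub contDiff_const)
  · exact hf.2.comp_homeomorph (Homeomorph.subRight p)

theorem grd_tr (f : R3 → ℝ) (p : R3) (k : Fin 3) (y : R3) :
    grd (tr f p) k y = grd f k (y - p) := by
  unfold grd tr
  rw [fderiv_comp_sub]

theorem lap_tr (f : R3 → ℝ) (p : R3) (y : R3) :
    lap (tr f p) y = lap f (y - p) := by
  unfold lap
  refine Finset.sum_congr rfl fun k _ => ?_
  have : grd (tr f p) k = tr (grd f k) p := by
    ext z; exact grd_tr f p k z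
  rw [this, grd_tr]

theorem cut1_test : Test (cut1 : R3 → ℝ) := ⟨cut1.contDiff, cut1.hasCompactSupport⟩

theorem cut2_test : Test (cut2 : R3 → ℝ) := ⟨cut2.contDiff, cut2.hasCompactSupport⟩

theorem lap_cont {f : R3 → ℝ} (hf : Test f) : Continuous (lap f) := by
  unfold lap
  exact continuous_finsetSum _ fun k _ => (test_grd (test_grd hf k) k).continuous

theorem lap_compact {f : R3 → ℝ} (hf : Test f) : HasCompactSupport (lap f) := by
  unfold lap
  have h : ∀ k, HasCompactSupport (grd (grd f k) k) := fun k => (test_grd (test_grd hf k) k).2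
  simp only [Fin.sum_univ_three]
  exact ((h 0).add (h 1)).add (h 2)

/-- common bound for the derivatives of the cutoffs. -/
theorem exists_cut_bound : ∃ C : ℝ, 1 ≤ C ∧ (∀ x, |lap (cut1 : R3 → ℝ) x| ≤ C) ∧
    (∀ k x, |grd (cut1 : R3 → ℝ) k x| ≤ C) ∧ (∀ k x, |grd (cut2 : R3 → ℝ) k x| ≤ C) := by
  obtain ⟨C0, h0⟩ := (lap_compact cut1_test).exists_bound_of_continuous (lap_cont cut1_test)
  have h1 : ∀ k, ∃ C, ∀ x, ‖grd (cut1 : R3 → ℝ) k x‖ ≤ C := fun k =>
    (test_grd cut1_test k).2.exists_bound_of_continuous (test_grd cut1_test k).continuous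
  have h2 : ∀ k, ∃ C, ∀ x, ‖grd (cut2 : R3 → ℝ) k x‖ ≤ C := fun k =>
    (test_grd cut2_test k).2.exists_bound_of_continuous (test_grd cut2_test k).continuous
  choose C1 h1 using h1
  choose C2 h2 using h2
  refine ⟨1 + |C0| + ∑ k, |C1 k| + ∑ k, |C2 k|, ?_, ?_, ?_, ?_⟩
  · have : 0 ≤ |C0| := abs_nonneg _
    have : 0 ≤ ∑ k, |C1 k| := Finset.sum_nonneg fun _ _ => abs_nonneg _
    have : 0 ≤ ∑ k, |C2 k| := Finset.sum_nonneg fun _ _ => abs_nonneg _
    linarith
  · intro x
    have := (h0 x).trans (le_abs_self _)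
    rw [Real.norm_eq_abs] at this
    have : 0 ≤ ∑ k, |C1 k| := Finset.sum_nonneg fun _ _ => abs_nonneg _
    have : 0 ≤ ∑ k, |C2 k| := Finset.sum_nonneg fun _ _ => abs_nonneg _
    linarith
  · intro k x
    have h3 := (h1 k x).trans (le_abs_self _)
    rw [Real.norm_eq_abs] at h3
    have h4 : |C1 k| ≤ ∑ k, |C1 k| :=
      Finset.single_le_sum (f := fun k => |C1 k|) (fun _ _ => abs_nonneg _) (Finset.mem_univ k)
    have : 0 ≤ |C0| := abs_nonneg _
    have : 0 ≤ ∑ k, |C2 k| := Finset.sum_nonneg fun _ _ => abs_nonneg _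
    linarith
  · intro k x
    have h3 := (h2 k x).trans (le_abs_self _)
    rw [Real.norm_eq_abs] at h3
    have h4 : |C2 k| ≤ ∑ k, |C2 k| :=
      Finset.single_le_sum (f := fun k => |C2 k|) (fun _ _ => abs_nonneg _) (Finset.mem_univ k)
    have : 0 ≤ |C0| := abs_nonneg _
    have : 0 ≤ ∑ k, |C1 k| := Finset.sum_nonneg fun _ _ => abs_nonneg _
    linarith

theorem cut1_zero {x : R3} (h : 3 / 2 ≤ ‖x‖) : cut1 x = 0 := by
  apply cut1.zero_of_le_dist
  rw [dist_zero_right]; exact h

theorem cut1_one {x : R3} (h : ‖x‖ ≤ 1) : cut1 x = 1 := by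
  apply cut1.one_of_mem_closedBall
  rw [mem_closedBall_zero_iff]; exact h

theorem cut2_zero {x : R3} (h : 7 / 4 ≤ ‖x‖) : cut2 x = 0 := by
  apply cut2.zero_of_le_dist
  rw [dist_zero_right]; exact h

theorem cut2_one {x : R3} (h : ‖x‖ ≤ 3 / 2) : cut2 x = 1 := by
  apply cut2.one_of_mem_closedBall
  rw [mem_closedBall_zero_iff]; exact h

theorem grd_zero_of_eventually {f : R3 → ℝ} {x : R3} (h : f =ᶠ[𝓝 x] fun _ => (0 : ℝ)) (k : Fin 3) :
    grd f k x = 0 := by
  unfold grd
  rw [h.fderiv_eq]; simp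

theorem cut1_ev {x : R3} (h : 3 / 2 < ‖x‖) : (cut1 : R3 → ℝ) =ᶠ[𝓝 x] fun _ => (0 : ℝ) := by
  have : ∀ᶠ y in 𝓝 x, 3 / 2 < ‖y‖ := continuous_norm.continuousAt.eventually_const_lt h
  filter_upwards [this] with y hy using cut1_zero hy.le

theorem cut2_ev {x : R3} (h : 7 / 4 < ‖x‖) : (cut2 : R3 → ℝ) =ᶠ[𝓝 x] fun _ => (0 : ℝ) := by
  have : ∀ᶠ y in 𝓝 x, 7 / 4 < ‖y‖ := continuous_norm.continuousAt.eventually_const_lt h
  filter_upwards [this] with y hy using cut2_zero hy.le

theorem grd_cut1_zero {x : R3} (h : 3 / 2 < ‖x‖) (k : Fin 3) : grd (cut1 : R3 → ℝ) k x = 0 :=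
  grd_zero_of_eventually (cut1_ev h) k

theorem grd_cut2_zero {x : R3} (h : 7 / 4 < ‖x‖) (k : Fin 3) : grd (cut2 : R3 → ℝ) k x = 0 :=
  grd_zero_of_eventually (cut2_ev h) k

theorem lap_cut1_zero {x : R3} (h : 3 / 2 < ‖x‖) : lap (cut1 : R3 → ℝ) x = 0 := by
  unfold lap
  refine Finset.sum_eq_zero fun k _ => ?_
  refine grd_zero_of_eventually ?_ k
  have : ∀ᶠ y in 𝓝 x, 3 / 2 < ‖y‖ := continuous_norm.continuousAt.eventually_const_lt h
  filter_upwards [this] with y hy using grd_cut1_zero hy k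

end

end Vale.Agent.P363.H917
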