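import Vale.Agent.P363.MathlibUsed

/-! One-dimensional tent profile: a smooth even compactly supported function whose second
derivative is `α - β` with `β` concentrated near `0`. -/

namespace Vale.Agent.P363.H917

open MeasureTheory Filter Topology Set
open scoped ContDiff

noncomputable section

/-- a fixed bump. -/
def kap : ContDiffBump (0 : ℝ) := ⟨1 / 8, 1 / 4, by norm_num, by norm_num⟩

theorem kap_nonneg (s : ℝ) : 0 ≤ kap s := kap.nonneg

theorem kap_le_one (s : ℝ) : kap s ≤ 1 := kap.le_one

theorem kap_zero {s : ℝ} (h : 1 / 4 ≤ |s|) : kap s = 0 := by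
  apply kap.zero_of_le_dist
  rw [Real.dist_eq, sub_zero]; exact h

theorem kap_one {s : ℝ} (h : |s| ≤ 1 / 8) : kap s = 1 := by
  apply kap.one_of_mem_closedBall
  rw [Metric.mem_closedBall, Real.dist_eq, sub_zero]; exact h

theorem kap_neg (s : ℝ) : kap (-s) = kap s := kap.neg s

theorem kap_contDiff : ContDiff ℝ ∞ (kap : ℝ → ℝ) := kap.contDiff

theorem kap_cont : Continuous (kap : ℝ → ℝ) := kap.continuous

/-- positive part of the second derivative. -/
def alp (s : ℝ) : ℝ := kap (s - 3 / 4) + kap (s + 3 / 4)

/-- negative part of the second derivative. -/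
def bet (d s : ℝ) : ℝ := 2 / d * kap (s / d)

/-- second derivative. -/
def ww (d s : ℝ) : ℝ := alp s - bet d s

/-- first derivative. -/
def GG (d s : ℝ) : ℝ := ∫ t in (-1 : ℝ)..s, ww d t

/-- the profile. -/
def FF (d s : ℝ) : ℝ := ∫ t in (-1 : ℝ)..s, GG d t

variable {d : ℝ}

theorem alp_nonneg (s : ℝ) : 0 ≤ alp s := add_nonneg (kap_nonneg _) (kap_nonneg _)

theorem alp_one {s : ℝ} (h1 : 5 / 8 ≤ s) (h2 : s ≤ 7 / 8) : 1 ≤ alp s := by
  have : kap (s - 3 / 4) = 1 := kap_one (by rw [abs_le]; constructor <;> linarith)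
  unfold alp
  rw [this]
  linarith [kap_nonneg (s + 3 / 4)]

theorem alp_zero {s : ℝ} (h : 1 ≤ |s|) : alp s = 0 := by
  unfold alp
  rw [kap_zero, kap_zero, add_zero]
  · rcases le_abs.1 h with h | h
    · rw [abs_of_nonneg] <;> linarith
    · rw [abs_of_nonpos] <;> linarith
  · rcases le_abs.1 h with h | h
    · rw [abs_of_nonneg] <;> linarith
    · rw [abs_of_nonpos] <;> linarith

theorem alp_neg (s : ℝ) : alp (-s) = alp s := by
  unfold alp
  have e1 : kap (-s - 3 / 4) = kap (s + 3 / 4) := by rw [← kap_neg]; ring_nf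
  have e2 : kap (-s + 3 / 4) = kap (s - 3 / 4) := by rw [← kap_neg]; ring_nf
  rw [e1, e2, add_comm]

theorem bet_nonneg (hd : 0 < d) (s : ℝ) : 0 ≤ bet d s :=
  mul_nonneg (by positivity) (kap_nonneg _)

theorem bet_le (hd : 0 < d) (s : ℝ) : bet d s ≤ 2 / d := by
  unfold bet
  have : (0 : ℝ) ≤ 2 / d := by positivity
  nlinarith [kap_le_one (s / d)]

theorem bet_zero (hd : 0 < d) {s : ℝ} (h : d / 4 ≤ |s|) : bet d s = 0 := by
  unfold bet
  rw [kap_zero, mul_zero]
  rw [abs_div, abs_of_pos hd, le_div_iff₀ hd]
  linarith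

theorem bet_neg (s : ℝ) : bet d (-s) = bet d s := by
  unfold bet
  rw [neg_div, kap_neg]

theorem ww_neg (s : ℝ) : ww d (-s) = ww d s := by
  unfold ww; rw [alp_neg, bet_neg]

theorem ww_contDiff : ContDiff ℝ ∞ (ww d) := by
  unfold ww alp bet
  refine ContDiff.sub (ContDiff.add ?_ ?_) (contDiff_const.mul ?_)
  · exact kap_contDiff.comp (contDiff_id.sub contDiff_const)
  · exact kap_contDiff.comp (contDiff_id.add contDiff_const)
  · exact kap_contDiff.comp (contDiff_id.div_const d)

theorem ww_cont : Continuous (ww d) := ww_contDiff.continuous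

theorem ww_zero (hd : 0 < d) (hd1 : d ≤ 1) {s : ℝ} (h : 1 ≤ |s|) : ww d s = 0 := by
  unfold ww
  rw [alp_zero h, bet_zero hd (by linarith), sub_zero]

theorem integral_kap_sub (c : ℝ) : ∫ s, kap (s - c) = ∫ s, kap s :=
  integral_sub_right_eq_self (fun s => kap s) c

theorem integral_ww (hd : 0 < d) : ∫ s, ww d s = 0 := by
  have hk : Integrable (fun s : ℝ => kap s) := kap.integrable
  have h1 : Integrable (fun s : ℝ => kap (s - 3 / 4)) := hk.comp_sub_right _
  have h2 : Integrable (fun s : ℝ => kap (s + 3 / 4)) := hk.comp_add_right _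
  have h3 : Integrable (fun s : ℝ => 2 / d * kap (s / d)) := (hk.comp_div hd.ne').const_mul _
  have e1 : ∫ s, kap (s - 3 / 4) = ∫ s, kap s := integral_sub_right_eq_self (fun s => kap s) _
  have e2 : ∫ s, kap (s + 3 / 4) = ∫ s, kap s := integral_add_right_eq_self (fun s => kap s) _
  have e3 : ∫ s, kap (s / d) = d * ∫ s, kap s := by
    rw [Measure.integral_comp_div (fun s => kap s) d, smul_eq_mul, abs_of_pos hd]
  have : ∫ s, ww d s = ∫ s, ((kap (s - 3 / 4) + kap (s + 3 / 4)) - 2 / d * kap (s / d)) := rfl
  have h12 : Integrable (fun s : ℝ => kap (s - 3 / 4) + kap (s + 3 / 4)) := h1.add h2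
  rw [this, integral_sub h12 h3, integral_add h1 h2, integral_const_mul, e1, e2, e3]
  field_simp
  ring

theorem ww_support (hd : 0 < d) (hd1 : d ≤ 1) {s : ℝ} (hs : 1 ≤ s) :
    Function.support (ww d) ⊆ Ioc (-1) s := by
  intro t ht
  by_contra h
  apply ht
  apply ww_zero hd hd1
  rw [mem_Ioc, not_and_or, not_lt, not_le] at h
  rcases h with h | h
  · rw [le_abs]; right; linarith
  · rw [le_abs]; left; linarith

theorem GG_hasDerivAt (s : ℝ) : HasDerivAt (GG d) (ww d s) s :=
  intervalIntegral.integral_hasDerivAt_right (ww_cont.intervalIntegrable _ _)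
    (ww_cont.stronglyMeasurableAtFilter _ _) ww_cont.continuousAt

theorem GG_cont : Continuous (GG d) :=
  continuous_iff_continuousAt.2 fun s => (GG_hasDerivAt s).continuousAt

theorem FF_hasDerivAt (s : ℝ) : HasDerivAt (FF d) (GG d s) s :=
  intervalIntegral.integral_hasDerivAt_right (GG_cont.intervalIntegrable _ _)
    (GG_cont.stronglyMeasurableAtFilter _ _) GG_cont.continuousAt

theorem FF_cont : Continuous (FF d) :=
  continuous_iff_continuousAt.2 fun s => (FF_hasDerivAt s).continuousAt

theorem GG_contDiff : ContDiff ℝ ∞ (GG d) := by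
  rw [contDiff_infty_iff_deriv]
  refine ⟨fun s => (GG_hasDerivAt s).differentiableAt, ?_⟩
  have : deriv (GG d) = ww d := funext fun s => (GG_hasDerivAt s).deriv
  rw [this]; exact ww_contDiff

theorem FF_contDiff : ContDiff ℝ ∞ (FF d) := by
  rw [contDiff_infty_iff_deriv]
  refine ⟨fun s => (FF_hasDerivAt s).differentiableAt, ?_⟩
  have : deriv (FF d) = GG d := funext fun s => (FF_hasDerivAt s).deriv
  rw [this]; exact GG_contDiff

theorem GG_zero (hd : 0 < d) (hd1 : d ≤ 1) {s : ℝ} (h : 1 ≤ |s|) : GG d s = 0 := by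
  unfold GG
  rcases le_abs.1 h with h | h
  · rw [intervalIntegral.integral_eq_integral_of_support_subset (ww_support hd hd1 h),
      integral_ww hd]
  · rw [intervalIntegral.integral_symm, neg_eq_zero]
    rw [intervalIntegral.integral_of_le (by linarith)]
    refine setIntegral_eq_zero_of_forall_eq_zero fun t ht => ?_
    apply ww_zero hd hd1
    rw [le_abs]; right; linarith [ht.2]

theorem GG_neg (hd : 0 < d) (hd1 : d ≤ 1) (s : ℝ) : GG d (-s) = -GG d s := by
  have h1 : GG d (-s) = ∫ t in s..1, ww d t := by
    unfold GG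
    have := intervalIntegral.integral_comp_neg (a := s) (b := 1) (fun t => ww d t)
    simp only [ww_neg] at this
    exact this.symm
  have h2 : GG d s + ∫ t in s..1, ww d t = GG d 1 := by
    unfold GG
    exact intervalIntegral.integral_add_adjacent_intervals (ww_cont.intervalIntegrable _ _)
      (ww_cont.intervalIntegrable _ _)
  have h3 : GG d 1 = 0 := GG_zero hd hd1 (by simp)
  linarith

theorem GG_support (hd : 0 < d) (hd1 : d ≤ 1) {s : ℝ} (hs : 1 ≤ s) :
    Function.support (GG d) ⊆ Ioc (-1) s := by
  intro t ht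
  by_contra h
  apply ht
  apply GG_zero hd hd1
  rw [mem_Ioc, not_and_or, not_lt, not_le] at h
  rcases h with h | h
  · rw [le_abs]; right; linarith
  · rw [le_abs]; left; linarith

theorem integral_GG (hd : 0 < d) (hd1 : d ≤ 1) : ∫ s, GG d s = 0 := by
  have h1 : ∫ s, GG d (-s) = ∫ s, GG d s := integral_neg_eq_self _ _
  have h2 : ∫ s, GG d (-s) = -∫ s, GG d s := by
    simp only [GG_neg hd hd1]
    exact integral_neg _
  linarith

theorem FF_zero (hd : 0 < d) (hd1 : d ≤ 1) {s : ℝ} (h : 1 ≤ |s|) : FF d s = 0 := by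
  unfold FF
  rcases le_abs.1 h with h | h
  · rw [intervalIntegral.integral_eq_integral_of_support_subset (GG_support hd hd1 h),
      integral_GG hd hd1]
  · rw [intervalIntegral.integral_symm, neg_eq_zero]
    rw [intervalIntegral.integral_of_le (by linarith)]
    refine setIntegral_eq_zero_of_forall_eq_zero fun t ht => ?_
    apply GG_zero hd hd1
    rw [le_abs]; right; linarith [ht.2]

theorem GG_abs_le (hd : 0 < d) (hd1 : d ≤ 1) (s : ℝ) : |GG d s| ≤ 6 := by
  rcases le_or_gt 1 |s| with h | h
  · rw [GG_zero hd hd1 h]; norm_num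
  · rw [abs_lt] at h
    -- split `ww` into the two parts
    have ca : Continuous alp := by
      unfold alp
      exact (kap_cont.comp (continuous_id.sub continuous_const)).add
        (kap_cont.comp (continuous_id.add continuous_const))
    have cb : Continuous (bet d) := by
      unfold bet
      exact continuous_const.mul (kap_cont.comp (continuous_id.div_const d))
    have e : GG d s = (∫ t in (-1 : ℝ)..s, alp t) - ∫ t in (-1 : ℝ)..s, bet d t := by
      unfold GG ww
      exact intervalIntegral.integral_sub (ca.intervalIntegrable _ _) (cb.intervalIntegrable _ _)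
    have b1 : |∫ t in (-1 : ℝ)..s, alp t| ≤ 4 := by
      have := intervalIntegral.norm_integral_le_of_norm_le_const (a := -1) (b := s) (C := 2)
        (f := alp) (fun t _ => by
          rw [Real.norm_of_nonneg (alp_nonneg t)]
          unfold alp
          linarith [kap_le_one (t - 3 / 4), kap_le_one (t + 3 / 4)])
      rw [Real.norm_eq_abs] at this
      refine this.trans ?_
      rw [abs_of_nonneg (by linarith)]
      linarith
    have b2 : |∫ t in (-1 : ℝ)..s, bet d t| ≤ 2 := by
      have h0 : 0 ≤ ∫ t in (-1 : ℝ)..s, bet d t :=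
        intervalIntegral.integral_nonneg (by linarith) fun t _ => bet_nonneg hd t
      rw [abs_of_nonneg h0]
      have hk : Integrable (fun s : ℝ => kap s) := kap.integrable
      have h3 : Integrable (fun s : ℝ => 2 / d * kap (s / d)) := (hk.comp_div hd.ne').const_mul _
      have h1 : ∫ t in (-1 : ℝ)..s, bet d t ≤ ∫ t, bet d t := by
        rw [intervalIntegral.integral_of_le (by linarith)]
        exact setIntegral_le_integral h3 (Eventually.of_forall fun t => bet_nonneg hd t)
      have h4 : ∫ t, bet d t = 2 * ∫ s, kap s := by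
        have e3 : ∫ s, kap (s / d) = d * ∫ s, kap s := by
          rw [Measure.integral_comp_div (fun s => kap s) d, smul_eq_mul, abs_of_pos hd]
        have : ∫ t, bet d t = ∫ t, 2 / d * kap (t / d) := rfl
        rw [this, integral_const_mul, e3]
        field_simp
      have h5 : ∫ s, kap s ≤ 1 := by
        have hsup : Function.support (fun s : ℝ => kap s) ⊆ Ioc (-(1 / 4)) (1 / 4) := by
          intro t ht
          by_contra h
          apply ht
          apply kap_zero
          rw [mem_Ioc, not_and_or, not_lt, not_le] at h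
          rcases h with h | h
          · rw [le_abs]; right; linarith
          · rw [le_abs]; left; linarith
        rw [← intervalIntegral.integral_eq_integral_of_support_subset hsup]
        have := intervalIntegral.norm_integral_le_of_norm_le_const (a := -(1 / 4)) (b := 1 / 4)
          (C := 1) (f := fun t => kap t) (fun t _ => by
            rw [Real.norm_of_nonneg (kap_nonneg t)]; exact kap_le_one t)
        rw [Real.norm_eq_abs] at this
        refine (le_abs_self _).trans (this.trans ?_)
        norm_num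
      linarith
    rw [e]
    have := abs_sub (∫ t in (-1 : ℝ)..s, alp t) (∫ t in (-1 : ℝ)..s, bet d t)
    linarith

theorem FF_abs_le (hd : 0 < d) (hd1 : d ≤ 1) (s : ℝ) : |FF d s| ≤ 12 := by
  rcases le_or_gt 1 |s| with h | h
  · rw [FF_zero hd hd1 h]; norm_num
  · rw [abs_lt] at h
    have := intervalIntegral.norm_integral_le_of_norm_le_const (a := -1) (b := s) (C := 6)
      (f := GG d) (fun t _ => by rw [Real.norm_eq_abs]; exact GG_abs_le hd hd1 t)
    rw [Real.norm_eq_abs] at this
    refine this.trans ?_
    rw [abs_of_nonneg (by linarith)]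
    linarith

end

end Vale.Agent.P363.H917
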