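import Vale.Agent.P363.H917.VSplit
import Vale.Agent.P363.H917.Profile
import Vale.Agent.P363.R.Sob.Chain

/-! The equation for `a` tested with smooth functions, product test functions, slab measures. -/

namespace Vale.Agent.P363.H917

open MeasureTheory Filter Topology Set
open Vale.Agent.P363.Stmt (R3 MemV LpR3)
open Vale.Agent.P363.R.Sob
open Vale.Agent.P363.R.KS
open scoped ContDiff ENNReal NNReal

noncomputable section

/-- gradient of a smooth function in coordinates. -/
def grd (ζ : R3 → ℝ) (k : Fin 3) (x : R3) : ℝ := fderiv ℝ ζ x (dir k)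

/-- Laplacian of a smooth function. -/
def lap (ζ : R3 → ℝ) (x : R3) : ℝ := ∑ k, grd (grd ζ k) k x

theorem test_grd {ζ : R3 → ℝ} (h : Test ζ) (k : Fin 3) : Test (grd ζ k) := h.fderiv (dir k)

theorem test_h1 {ζ : R3 → ℝ} (h : Test ζ) : H1 ζ (grd ζ) where
  mem := h.continuous.memLp_of_hasCompactSupport h.2
  gmem k := (test_grd h k).continuous.memLp_of_hasCompactSupport (test_grd h k).2
  wd k := isWD_of_contDiff (h.1.of_le (by simp))

theorem test_eq {v : R3 → ℝ} {μ : ℝ} {a : R3 → ℝ} {ga : Fin 3 → R3 → ℝ}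
    (ha : H1 a ga) (eqa : ∀ h k, H1 h k → qf v μ a ga h k = 0) {ζ : R3 → ℝ} (hζ : Test ζ) :
    ∫ x, a x * lap ζ x = 2 * ∫ x, (v x - μ) * a x * ζ x := by
  have h1 := eqa ζ (grd ζ) (test_h1 hζ)
  unfold qf at h1
  have h2 : ∀ k, ∫ x, ga k x * grd ζ k x = - ∫ x, a x * grd (grd ζ k) k x := by
    intro k
    have := ha.wd k (grd ζ k) (test_grd hζ k)
    simp only [smul_eq_mul] at this
    have e1 : ∫ x, ga k x * grd ζ k x = ∫ x, grd ζ k x * ga k x := by
      congr 1; ext x; ring
    have e2 : ∫ x, a x * grd (grd ζ k) k x = ∫ x, (fderiv ℝ (grd ζ k) x (dir k)) * a x := by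
      congr 1; ext x
      show a x * fderiv ℝ (grd ζ k) x (dir k) = _
      ring
    rw [e1, e2, this, neg_neg]
  have i1 : ∀ k, Integrable (fun x => ga k x * grd ζ k x) (volume : Measure R3) := fun k =>
    (ha.gmem k).integrable_mul ((test_h1 hζ).gmem k)
  have i2 : ∀ k, Integrable (fun x => a x * grd (grd ζ k) k x) (volume : Measure R3) := fun k =>
    ha.mem.integrable_mul ((test_h1 (test_grd hζ k)).gmem k)
  have e3 : ∫ x, ∑ i, ga i x * grd ζ i x = - ∫ x, a x * lap ζ x := by
    rw [integral_finsetSum _ (fun k _ => i1 k)]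
    simp only [lap, Finset.mul_sum]
    rw [integral_finsetSum _ (fun k _ => i2 k), ← Finset.sum_neg_distrib]
    exact Finset.sum_congr rfl fun k _ => h2 k
  rw [e3] at h1
  linarith

/-! ### product test functions -/

/-- third coordinate. -/
def pr2 : R3 →L[ℝ] ℝ := EuclideanSpace.proj 2

theorem pr2_apply (x : R3) : pr2 x = x 2 := rfl

theorem pr2_dir (k : Fin 3) : pr2 (dir k) = if k = 2 then 1 else 0 := by
  rw [pr2_apply]
  fin_cases k <;> simp [dir]

/-- the product test function. -/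
def ptest (η : R3 → ℝ) (T : ℝ → ℝ) (y : R3) : ℝ := η y * T (y 2)

theorem ptest_test {η : R3 → ℝ} {T : ℝ → ℝ} (hη : Test η) (hT : ContDiff ℝ ∞ T) :
    Test (ptest η T) := hη.mul (hT.comp pr2.contDiff)

theorem hasFDerivAt_ptest {η : R3 → ℝ} {T T1 : ℝ → ℝ} (hη : ContDiff ℝ ∞ η)
    (hT : ∀ s, HasDerivAt T (T1 s) s) (x : R3) :
    HasFDerivAt (ptest η T) (η x • (T1 (x 2) • pr2) + T (x 2) • fderiv ℝ η x) x := by
  have h1 : HasFDerivAt (fun y : R3 => T (y 2)) (T1 (x 2) • pr2) x :=
    (hT (pr2 x)).comp_hasFDerivAt x pr2.hasFDerivAt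
  have h2 : HasFDerivAt η (fderiv ℝ η x) x := (hη.differentiable (by simp) x).hasFDerivAt
  exact h2.mul h1

theorem grd_ptest {η : R3 → ℝ} {T T1 : ℝ → ℝ} (hη : ContDiff ℝ ∞ η)
    (hT : ∀ s, HasDerivAt T (T1 s) s) (k : Fin 3) (x : R3) :
    grd (ptest η T) k x = η x * (T1 (x 2) * (if k = 2 then 1 else 0)) + T (x 2) * grd η k x := by
  unfold grd
  rw [(hasFDerivAt_ptest hη hT x).fderiv]
  simp [pr2_dir]

theorem grd_add {f g : R3 → ℝ} (hf : Differentiable ℝ f) (hg : Differentiable ℝ g) (k : Fin 3)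
    (x : R3) : grd (fun y => f y + g y) k x = grd f k x + grd g k x := by
  unfold grd
  rw [fderiv_fun_add (hf x) (hg x)]
  rfl

theorem lap_ptest {η : R3 → ℝ} {T T1 T2 : ℝ → ℝ} (hη : ContDiff ℝ ∞ η)
    (hT : ∀ s, HasDerivAt T (T1 s) s) (hT1 : ∀ s, HasDerivAt T1 (T2 s) s) (x : R3) :
    lap (ptest η T) x = lap η x * T (x 2) + 2 * grd η 2 x * T1 (x 2) + η x * T2 (x 2) := by
  have hgη : ∀ k, ContDiff ℝ ∞ (grd η k) := fun k => by
    have h1 : ContDiff ℝ ∞ (fderiv ℝ η) := hη.fderiv_right (by simp)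
    exact h1.clm_apply contDiff_const
  have hd1 : ∀ c : ℝ, Differentiable ℝ (ptest (fun y => η y * c) T1) := fun c x =>
    (hasFDerivAt_ptest (hη.mul contDiff_const) hT1 x).differentiableAt
  have hd2 : ∀ k, Differentiable ℝ (ptest (grd η k) T) := fun k x =>
    (hasFDerivAt_ptest (hgη k) hT x).differentiableAt
  have key : ∀ k : Fin 3, grd (grd (ptest η T) k) k x =
      (η x * (if k = 2 then 1 else 0)) * (T2 (x 2) * (if k = 2 then 1 else 0)) +
      T1 (x 2) * (grd η k x * (if k = 2 then 1 else 0)) +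
      (grd η k x * (T1 (x 2) * (if k = 2 then 1 else 0)) + T (x 2) * grd (grd η k) k x) := by
    intro k
    have e : grd (ptest η T) k = fun y =>
        ptest (fun y => η y * (if k = 2 then 1 else 0)) T1 y + ptest (grd η k) T y := by
      ext y
      rw [grd_ptest hη hT]
      unfold ptest
      ring
    rw [e, grd_add (hd1 _) (hd2 k), grd_ptest (hη.mul contDiff_const) hT1,
      grd_ptest (hgη k) hT]
    have e2 : grd (fun y => η y * (if k = 2 then (1 : ℝ) else 0)) k x =
        grd η k x * (if k = 2 then 1 else 0) := by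
      unfold grd
      rw [fderiv_mul_const (hη.differentiable (by simp) x)]
      split_ifs <;> simp
    rw [e2]
  unfold lap
  simp only [key]
  simp only [Fin.sum_univ_three]
  simp
  ring

/-! ### boxes and slabs -/

theorem volume_box (a b : Fin 3 → ℝ) :
    (volume : Measure R3) {y | ∀ i, y i ∈ Ioo (a i) (b i)} = ∏ i, ENNReal.ofReal (b i - a i) := by
  have h := (PiLp.volume_preserving_ofLp (Fin 3)).measure_preimage
    (s := Set.pi univ fun i => Ioo (a i) (b i))
    (MeasurableSet.univ_pi fun i => measurableSet_Ioo).nullMeasurableSet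
  rw [Real.volume_pi_Ioo] at h
  rw [← h]
  congr 1
  ext y
  simp [Set.mem_pi]

theorem measurableSet_box (a b : Fin 3 → ℝ) :
    MeasurableSet {y : R3 | ∀ i, y i ∈ Ioo (a i) (b i)} := by
  have : {y : R3 | ∀ i, y i ∈ Ioo (a i) (b i)} = ⋂ i, {y : R3 | y i ∈ Ioo (a i) (b i)} := by
    ext y; simp
  rw [this]
  refine MeasurableSet.iInter fun i => ?_
  exact measurableSet_Ioo.preimage (EuclideanSpace.proj (𝕜 := ℝ) i).continuous.measurable

/-- slab of a ball. -/
def slab (p : R3) (t : ℝ) : Set R3 := Metric.ball p 2 ∩ {y | |y 2| < t}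

theorem measurableSet_slab (p : R3) (t : ℝ) : MeasurableSet (slab p t) := by
  refine measurableSet_ball.inter ?_
  have : Measurable fun y : R3 => |y 2| :=
    (continuous_abs.comp (EuclideanSpace.proj (𝕜 := ℝ) 2).continuous).measurable
  exact this measurableSet_Iio

theorem abs_coord_le (x : R3) (i : Fin 3) : |x i| ≤ ‖x‖ := by
  rw [← Real.norm_eq_abs]; exact PiLp.norm_apply_le x i

theorem volume_slab_le (p : R3) (t : ℝ) :
    (volume : Measure R3) (slab p t) ≤ ENNReal.ofReal (32 * t) := by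
  have hsub : slab p t ⊆ {y : R3 | ∀ i, y i ∈ Ioo ((![p 0 - 2, p 1 - 2, -t] : Fin 3 → ℝ) i)
      ((![p 0 + 2, p 1 + 2, t] : Fin 3 → ℝ) i)} := by
    intro y hy i
    have h1 : ‖y - p‖ < 2 := by rw [← dist_eq_norm]; exact hy.1
    have h2 : |y 2| < t := hy.2
    have h3 : ∀ i, |y i - p i| < 2 := fun i => (abs_coord_le (y - p) i).trans_lt h1
    rw [abs_lt] at h2
    fin_cases i
    · have := abs_lt.1 (h3 0)
      constructor <;> simp <;> linarith
    · have := abs_lt.1 (h3 1)
      constructor <;> simp <;> linarith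
    · constructor <;> simp <;> linarith
  refine (measure_mono hsub).trans ?_
  rw [volume_box, Fin.prod_univ_three]
  simp only [Matrix.cons_val_zero, Matrix.cons_val_one, Matrix.cons_val]
  rw [← ENNReal.ofReal_mul (by linarith), ← ENNReal.ofReal_mul (by nlinarith)]
  apply ENNReal.ofReal_le_ofReal
  ring_nf
  linarith

end

end Vale.Agent.P363.H917
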