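import Vale.Agent.P363.H917.K4Cacc

/-! Block B8-2: contradiction at infinity (tent test function near the plane `x₂ = 0`). -/

namespace Vale.Agent.P363.H917

open MeasureTheory Filter Topology Set
open Vale.Agent.P363.Stmt (R3 MemV LpR3)
open Vale.Agent.P363.R.Sob
open Vale.Agent.P363.R.KS
open scoped ContDiff ENNReal NNReal

noncomputable section

/-- scaled profile -/
def TT (d ε t : ℝ) : ℝ := ε * FF d (t / ε)

/-- its derivative -/
def TT1 (d ε t : ℝ) : ℝ := GG d (t / ε)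

/-- its second derivative -/
def TT2 (d ε t : ℝ) : ℝ := (1 / ε) * ww d (t / ε)

theorem TT_hasDerivAt {d ε : ℝ} (hε : 0 < ε) (t : ℝ) : HasDerivAt (TT d ε) (TT1 d ε t) t := by
  have h1 : HasDerivAt (fun t : ℝ => t / ε) (1 / ε) t := (hasDerivAt_id t).div_const ε
  have h2 := (FF_hasDerivAt (d := d) (t / ε)).comp t h1
  have h3 := h2.const_mul ε
  have e : ε * (GG d (t / ε) * (1 / ε)) = TT1 d ε t := by
    unfold TT1; field_simp
  rw [← e]
  exact h3

theorem TT1_hasDerivAt {d ε : ℝ} (t : ℝ) : HasDerivAt (TT1 d ε) (TT2 d ε t) t := by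
  have h1 : HasDerivAt (fun t : ℝ => t / ε) (1 / ε) t := (hasDerivAt_id t).div_const ε
  have h2 := (GG_hasDerivAt (d := d) (t / ε)).comp t h1
  have e : ww d (t / ε) * (1 / ε) = TT2 d ε t := by
    unfold TT2; ring
  rw [← e]
  exact h2

theorem TT_contDiff {d ε : ℝ} : ContDiff ℝ ∞ (TT d ε) :=
  contDiff_const.mul (FF_contDiff.comp (contDiff_id.div_const ε))

theorem sum_sq_three (x : R3) : ‖x‖ ^ 2 = x 0 ^ 2 + x 1 ^ 2 + x 2 ^ 2 := by
  rw [EuclideanSpace.norm_sq_eq, Fin.sum_univ_three]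
  simp

/-- the small box near `p` at height about `ε`. -/
def sbox (p : R3) (ε : ℝ) : Set R3 :=
  {y | ∀ i, y i ∈ Ioo ((![p 0 - 1 / 2, p 1 - 1 / 2, 5 / 8 * ε] : Fin 3 → ℝ) i)
      ((![p 0 + 1 / 2, p 1 + 1 / 2, 7 / 8 * ε] : Fin 3 → ℝ) i)}

theorem sbox_mem {p y : R3} {ε : ℝ} (h : y ∈ sbox p ε) :
    |y 0 - p 0| < 1 / 2 ∧ |y 1 - p 1| < 1 / 2 ∧ 5 / 8 * ε < y 2 ∧ y 2 < 7 / 8 * ε := by
  have h0 := h 0
  have h1 := h 1
  have h2 := h 2
  simp only [Matrix.cons_val_zero, Matrix.cons_val_one, Matrix.cons_val, mem_Ioo] at h0 h1 h2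
  refine ⟨?_, ?_, h2.1, h2.2⟩
  · rw [abs_lt]; constructor <;> linarith [h0.1, h0.2]
  · rw [abs_lt]; constructor <;> linarith [h1.1, h1.2]

theorem sbox_norm {p y : R3} {ε : ℝ} (hp : p 2 = 0) (hε : 0 < ε) (hε1 : ε ≤ 1 / 4)
    (h : y ∈ sbox p ε) : ‖y - p‖ < 1 := by
  obtain ⟨h0, h1, h2, h3⟩ := sbox_mem h
  have e := sum_sq_three (y - p)
  have e0 : (y - p) 0 = y 0 - p 0 := rfl
  have e1 : (y - p) 1 = y 1 - p 1 := rfl
  have e2 : (y - p) 2 = y 2 - p 2 := rfl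
  rw [e0, e1, e2, hp, sub_zero] at e
  have a0 : (y 0 - p 0) ^ 2 < 1 / 4 := by
    rw [← sq_abs]; nlinarith [abs_nonneg (y 0 - p 0)]
  have a1 : (y 1 - p 1) ^ 2 < 1 / 4 := by
    rw [← sq_abs]; nlinarith [abs_nonneg (y 1 - p 1)]
  have a2 : (y 2) ^ 2 < 1 / 4 := by nlinarith
  have : ‖y - p‖ ^ 2 < 1 := by linarith
  nlinarith [norm_nonneg (y - p)]

theorem volume_sbox (p : R3) {ε : ℝ} (hε : 0 < ε) :
    (volume : Measure R3).real (sbox p ε) = ε / 4 := by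
  unfold Measure.real sbox
  rw [volume_box, Fin.prod_univ_three]
  simp only [Matrix.cons_val_zero, Matrix.cons_val_one, Matrix.cons_val]
  have e0 : p 0 + 1 / 2 - (p 0 - 1 / 2) = 1 := by ring
  have e1 : p 1 + 1 / 2 - (p 1 - 1 / 2) = 1 := by ring
  have e2 : 7 / 8 * ε - 5 / 8 * ε = ε / 4 := by ring
  rw [e0, e1, e2, ENNReal.ofReal_one, one_mul, one_mul, ENNReal.toReal_ofReal (by positivity)]

theorem volume_sbox_ne_top (p : R3) {ε : ℝ} : (volume : Measure R3) (sbox p ε) ≠ ⊤ := by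
  unfold sbox
  rw [volume_box, Fin.prod_univ_three]
  exact ENNReal.mul_ne_top (ENNReal.mul_ne_top ENNReal.ofReal_ne_top ENNReal.ofReal_ne_top)
    ENNReal.ofReal_ne_top

/-- the right-hand side of the final inequality. -/
def RR (A C C₁ K' μ δ' CC d ε E : ℝ) : ℝ :=
  2 / (d * ε) * A * MM C₁ (d * ε) E + 24 * C * A * MM C₁ (2 * ε) E +
    24 * ε * (K' + |μ|) * A * MM C₁ (2 * ε) E +
    12 * ε * (δ' * (3 * (CSob : ℝ) ^ 2 * (CC * (A ^ 2 * (8 * |C₁| + |E|)))) + 4 * δ')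


/-- integrability of `a` against continuous compactly supported functions -/
theorem int_cont {a : R3 → ℝ} {ga : Fin 3 → R3 → ℝ} (ha : H1 a ga) {g : R3 → ℝ}
    (hg : Continuous g) (hgc : HasCompactSupport g) :
    Integrable (fun x => a x * g x) (volume : Measure R3) :=
  ha.mem.integrable_mul (show MemLp _ 2 (volume : Measure R3) from
    hg.memLp_of_hasCompactSupport hgc)

theorem cont_alp : Continuous alp := by
  unfold alp
  exact (kap_cont.comp (continuous_id.sub continuous_const)).add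
    (kap_cont.comp (continuous_id.add continuous_const))

theorem cont_bet {d : ℝ} : Continuous (bet d) := by
  unfold bet
  exact continuous_const.mul (kap_cont.comp (continuous_id.div_const d))

theorem cont_x2 {ε : ℝ} : Continuous fun x : R3 => x 2 / ε := (pr2.continuous).div_const ε

theorem cont_TT {d ε : ℝ} : Continuous fun x : R3 => TT d ε (x 2) :=
  (TT_contDiff (d := d) (ε := ε)).continuous.comp pr2.continuous

theorem cont_TT1 {d ε : ℝ} : Continuous fun x : R3 => TT1 d ε (x 2) := by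
  have : Continuous (TT1 d ε) := GG_cont.comp (continuous_id.div_const ε)
  exact this.comp pr2.continuous

/-- the cut-off at `p` -/
abbrev et (p : R3) : R3 → ℝ := tr cut1 p

theorem et_test (p : R3) : Test (et p) := tr_test cut1_test p
theorem et_nonneg (p x : R3) : 0 ≤ et p x := cut1.nonneg
theorem et_le_one (p x : R3) : et p x ≤ 1 := cut1.le_one
theorem et_one {p x : R3} (h : ‖x - p‖ ≤ 1) : et p x = 1 := cut1_one h
theorem et_zero {p x : R3} (h : 3 / 2 ≤ ‖x - p‖) : et p x = 0 := cut1_zero h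
theorem not_ball {p x : R3} (hx : x ∉ Metric.ball p 2) : 3 / 2 < ‖x - p‖ := by
  rw [Metric.mem_ball, not_lt, dist_eq_norm] at hx; linarith
theorem et_zero2 {p x : R3} (hx : x ∉ Metric.ball p 2) : et p x = 0 := et_zero (not_ball hx).le
theorem et_grd_zero {p x : R3} (hx : x ∉ Metric.ball p 2) : grd (et p) 2 x = 0 := by
  rw [grd_tr]; exact grd_cut1_zero (not_ball hx) 2
theorem et_lap_zero {p x : R3} (hx : x ∉ Metric.ball p 2) : lap (et p) x = 0 := by
  rw [lap_tr]; exact lap_cut1_zero (not_ball hx)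

/-- the test function. -/
def zt (p : R3) (d ε : ℝ) : R3 → ℝ := ptest (et p) (TT d ε)

theorem zt_test (p : R3) (d ε : ℝ) : Test (zt p d ε) := ptest_test (et_test p) TT_contDiff

theorem lap_zt (p : R3) {d ε : ℝ} (hε : 0 < ε) (x : R3) :
    lap (zt p d ε) x = lap (et p) x * TT d ε (x 2) + 2 * grd (et p) 2 x * TT1 d ε (x 2)
      + et p x * TT2 d ε (x 2) := lap_ptest (et_test p).1 (TT_hasDerivAt hε) TT1_hasDerivAt x

theorem int_alp {a : R3 → ℝ} {ga : Fin 3 → R3 → ℝ} (ha : H1 a ga) (p : R3) (ε : ℝ) :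
    Integrable (fun x => a x * (et p x * ((1 / ε) * alp (x 2 / ε)))) (volume : Measure R3) :=
  int_cont ha ((et_test p).continuous.mul (continuous_const.mul (cont_alp.comp cont_x2)))
    ((et_test p).2.mul_right)

theorem int_bet {a : R3 → ℝ} {ga : Fin 3 → R3 → ℝ} (ha : H1 a ga) (p : R3) (d ε : ℝ) :
    Integrable (fun x => a x * (et p x * ((1 / ε) * bet d (x 2 / ε)))) (volume : Measure R3) :=
  int_cont ha ((et_test p).continuous.mul (continuous_const.mul (cont_bet.comp cont_x2)))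
    ((et_test p).2.mul_right)

theorem int_com {a : R3 → ℝ} {ga : Fin 3 → R3 → ℝ} (ha : H1 a ga) (p : R3) (d ε : ℝ) :
    Integrable (fun x => a x * (lap (et p) x * TT d ε (x 2) + 2 * grd (et p) 2 x *
      TT1 d ε (x 2))) (volume : Measure R3) := by
  refine int_cont ha (((lap_cont (et_test p)).mul cont_TT).add ((continuous_const.mul
      (test_grd (et_test p) 2).continuous).mul cont_TT1)) ?_
  refine HasCompactSupport.add ((lap_compact (et_test p)).mul_right) ?_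
  refine HasCompactSupport.mul_right ?_
  exact (test_grd (et_test p) 2).2.mul_left

theorem int_lap_split {a : R3 → ℝ} {ga : Fin 3 → R3 → ℝ} (ha : H1 a ga) (p : R3) {d ε : ℝ}
    (hε : 0 < ε) :
    ∫ x, a x * lap (zt p d ε) x =
      (∫ x, a x * (et p x * ((1 / ε) * alp (x 2 / ε)))) -
      (∫ x, a x * (et p x * ((1 / ε) * bet d (x 2 / ε)))) +
      ∫ x, a x * (lap (et p) x * TT d ε (x 2) + 2 * grd (et p) 2 x * TT1 d ε (x 2)) := by
  have IA := int_alp ha p ε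
  have IB := int_bet ha p d ε
  have I1 := int_com ha p d ε
  have h1 := integral_sub IA IB
  have h2 := integral_add (IA.sub IB) I1
  rw [← h1]
  refine Eq.trans ?_ h2
  refine integral_congr_ae (Eventually.of_forall fun x => ?_)
  simp only [Pi.sub_apply]
  rw [lap_zt p hε x]
  unfold TT2 ww
  ring

theorem norm_gt_of_ball {ρ : ℝ} {p x : R3} (hpn : ρ + 2 < ‖p‖) (hb : x ∈ Metric.ball p 2) :
    ρ < ‖x‖ := by
  rw [Metric.mem_ball, dist_eq_norm] at hb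
  have := norm_sub_norm_le p x
  rw [norm_sub_rev] at this
  linarith

/-- pointwise lower bound in the box -/
theorem box_lower {c q r ax sx η al x2 ε : ℝ} (hc : 0 < c) (hq : 0 < q) (hr : 0 < r)
    (hε : 0 < ε) (h5 : 5 / 8 * ε < x2) (hs : (q * q) * (r * r) * x2 ^ 2 ≤ sx ^ 2)
    (ha : c * |sx| ≤ ax) (hη : η = 1) (hal : 1 ≤ al) :
    c * (q * r) * (5 / 8) ≤ ax * (η * ((1 / ε) * al)) := by
  have hx2 : 0 < x2 := by nlinarith
  have h9 : 0 ≤ q * r * x2 := by positivity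
  have hsx : q * r * x2 ≤ |sx| := by
    have h8 : (q * r * x2) ^ 2 ≤ |sx| ^ 2 := by
      rw [sq_abs]
      calc (q * r * x2) ^ 2 = (q * q) * (r * r) * x2 ^ 2 := by ring
        _ ≤ _ := hs
    exact (sq_le_sq₀ h9 (abs_nonneg _)).1 h8
  have hax : c * (q * r * x2) ≤ ax := (mul_le_mul_of_nonneg_left hsx hc.le).trans ha
  rw [hη, one_mul]
  have h10 : c * (q * r * (5 / 8 * ε)) ≤ ax := by
    refine le_trans ?_ hax
    have h0 : 0 ≤ c * (q * r) := by positivity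
    have := mul_le_mul_of_nonneg_left h5.le h0
    linarith
  have h11 : 0 ≤ ax := le_trans (by positivity) h10
  have h12 : 0 ≤ 1 / ε := by positivity
  calc c * (q * r) * (5 / 8) = c * (q * r * (5 / 8 * ε)) * (1 / ε) := by field_simp
    _ ≤ ax * (1 / ε) := mul_le_mul_of_nonneg_right h10 h12
    _ = ax * (1 / ε * 1) := by ring
    _ ≤ _ := mul_le_mul_of_nonneg_left (mul_le_mul_of_nonneg_left hal h12) h11

theorem part_alp {a s : R3 → ℝ} {ga : Fin 3 → R3 → ℝ} (ha : H1 a ga)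
    {c ρ : ℝ} (hc : 0 < c)
    (low : ∀ᵐ x, ρ < ‖x‖ → c * |s x| ≤ a x)
    {p : R3} (hp : p 2 = 0) (hpn : ρ + 2 < ‖p‖) {q r ε : ℝ} (hq : 0 < q) (hr : 0 < r)
    (lowb : ∀ᵐ y, y ∈ Metric.ball p 2 → (q * q) * (r * r) * (y 2) ^ 2 ≤ s y ^ 2)
    (hε : 0 < ε) (hε1 : ε ≤ 1 / 4) :
    c * q * r * (5 / 32) * ε ≤ ∫ x, a x * (et p x * ((1 / ε) * alp (x 2 / ε))) := by
  have IA := int_alp ha p ε
  have hn : ∀ᵐ x ∂(volume : Measure R3), 0 ≤ a x * (et p x * ((1 / ε) * alp (x 2 / ε))) := by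
    filter_upwards [low] with x hx
    by_cases hb : x ∈ Metric.ball p 2
    · have h2 : 0 ≤ a x := (mul_nonneg hc.le (abs_nonneg _)).trans (hx (norm_gt_of_ball hpn hb))
      exact mul_nonneg h2 (mul_nonneg (et_nonneg p x) (mul_nonneg (by positivity) (alp_nonneg _)))
    · rw [et_zero2 hb]; simp
  have hms : MeasurableSet (sbox p ε) := measurableSet_box _ _
  have h1 : ∫ x in sbox p ε, a x * (et p x * ((1 / ε) * alp (x 2 / ε))) ≤
      ∫ x, a x * (et p x * ((1 / ε) * alp (x 2 / ε))) := setIntegral_le_integral IA hn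
  have h2 : ∫ x in sbox p ε, (c * (q * r) * (5 / 8) : ℝ) ≤
      ∫ x in sbox p ε, a x * (et p x * ((1 / ε) * alp (x 2 / ε))) := by
    refine setIntegral_mono_on_ae (integrableOn_const (volume_sbox_ne_top p)) IA.integrableOn
      hms ?_
    filter_upwards [low, lowb] with x hx hy hxs
    have hn1 := sbox_norm hp hε hε1 hxs
    obtain ⟨-, -, h5, h6⟩ := sbox_mem hxs
    have hxb : x ∈ Metric.ball p 2 := by
      rw [Metric.mem_ball, dist_eq_norm]; linarith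
    have h1 : ρ < ‖x‖ := norm_gt_of_ball hpn hxb
    have hη1 : et p x = 1 := et_one hn1.le
    have hal : 1 ≤ alp (x 2 / ε) := by
      apply alp_one
      · rw [le_div_iff₀ hε]; linarith
      · rw [div_le_iff₀ hε]; linarith
    exact box_lower hc hq hr hε h5 (hy hxb) (hx h1) hη1 hal
  rw [setIntegral_const, smul_eq_mul, volume_sbox p hε] at h2
  refine le_trans (le_of_eq ?_) (h2.trans h1)
  ring

theorem part_bet {a s : R3 → ℝ} (hs : MemLp s 2 (volume : Measure R3)) {A : ℝ} (hA0 : 0 ≤ A)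
    (hA : ∀ᵐ x, |a x| ≤ A * |s x|) {p : R3} {d ε I : ℝ} (hd : 0 < d) (hε : 0 < ε)
    (S1 : ∫ y in slab p (d * ε), |s y| ≤ I) :
    |∫ x, a x * (et p x * ((1 / ε) * bet d (x 2 / ε)))| ≤ (2 / (d * ε)) * A * I := by
  have h1 := int_bound (a := a) (s := s) (t := d * ε) (p := p) (M := 2 / (d * ε))
    (f := fun x => a x * (et p x * ((1 / ε) * bet d (x 2 / ε)))) hs (by positivity) hA
    (fun y hy => by
      by_cases hb : y ∈ Metric.ball p 2
      · have h2 : ¬ |y 2| < d * ε := fun h => hy ⟨hb, h⟩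
        have h3 : bet d (y 2 / ε) = 0 := by
          apply bet_zero hd
          rw [abs_div, abs_of_pos hε, le_div_iff₀ hε]
          have : 0 < d * ε := by positivity
          linarith [not_lt.1 h2]
        simp only [h3, mul_zero]
      · simp only [et_zero2 hb]; ring)
    (Eventually.of_forall fun y => by
      have h2 : 0 ≤ bet d (y 2 / ε) := bet_nonneg hd _
      have h3 : bet d (y 2 / ε) ≤ 2 / d := bet_le hd _
      have h4 : 0 ≤ 1 / ε := by positivity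
      rw [abs_mul, mul_comm (2 / (d * ε))]
      refine mul_le_mul_of_nonneg_left ?_ (abs_nonneg _)
      rw [abs_of_nonneg (mul_nonneg (et_nonneg p y) (mul_nonneg h4 h2))]
      calc et p y * (1 / ε * bet d (y 2 / ε)) ≤ 1 * (1 / ε * (2 / d)) := by
            refine mul_le_mul (et_le_one p y) ?_ (mul_nonneg h4 h2) zero_le_one
            exact mul_le_mul_of_nonneg_left h3 h4
        _ = 2 / (d * ε) := by field_simp)
  refine h1.trans ?_
  exact mul_le_mul_of_nonneg_left S1 (by positivity)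

theorem TT_abs_le {d ε : ℝ} (hd : 0 < d) (hd1 : d ≤ 1) (hε : 0 < ε) (t : ℝ) :
    |TT d ε t| ≤ 12 * ε := by
  unfold TT
  rw [abs_mul, abs_of_pos hε]
  have := mul_le_mul_of_nonneg_left (FF_abs_le hd hd1 (t / ε)) hε.le
  linarith

theorem TT1_abs_le {d ε : ℝ} (hd : 0 < d) (hd1 : d ≤ 1) (t : ℝ) :
    |TT1 d ε t| ≤ 6 := GG_abs_le hd hd1 _

theorem TT_zero {d ε : ℝ} (hd : 0 < d) (hd1 : d ≤ 1) (hε : 0 < ε) {t : ℝ}
    (h : ¬ |t| < 2 * ε) : TT d ε t = 0 := by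
  unfold TT
  rw [FF_zero hd hd1, mul_zero]
  rw [abs_div, abs_of_pos hε, le_div_iff₀ hε]; linarith [not_lt.1 h]

theorem TT1_zero {d ε : ℝ} (hd : 0 < d) (hd1 : d ≤ 1) (hε : 0 < ε) {t : ℝ}
    (h : ¬ |t| < 2 * ε) : TT1 d ε t = 0 := by
  unfold TT1
  apply GG_zero hd hd1
  rw [abs_div, abs_of_pos hε, le_div_iff₀ hε]; linarith [not_lt.1 h]

theorem com_bound {l g T T1 C ε : ℝ} (hC : 0 ≤ C) (h2 : |l| ≤ C) (h3 : |g| ≤ C)
    (hT : |T| ≤ 12 * ε) (hT1 : |T1| ≤ 6) (hε1 : ε ≤ 1 / 4) :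
    |l * T + 2 * g * T1| ≤ 24 * C := by
  calc |l * T + 2 * g * T1| ≤ |l * T| + |2 * g * T1| := abs_add_le _ _
    _ = |l| * |T| + 2 * |g| * |T1| := by rw [abs_mul, abs_mul, abs_mul, abs_two]
    _ ≤ C * (12 * ε) + 2 * C * 6 := by
        refine add_le_add (mul_le_mul h2 hT (abs_nonneg _) hC) ?_
        exact mul_le_mul (by linarith) hT1 (abs_nonneg _) (by linarith)
    _ ≤ 24 * C := by nlinarith

theorem part_com {a s : R3 → ℝ} (hs : MemLp s 2 (volume : Measure R3)) {A : ℝ} (hA0 : 0 ≤ A)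
    (hA : ∀ᵐ x, |a x| ≤ A * |s x|) {p : R3} {d ε I C : ℝ} (hd : 0 < d) (hd1 : d ≤ 1)
    (hε : 0 < ε) (hε1 : ε ≤ 1 / 4) (hC1 : 1 ≤ C) (hCl : ∀ x, |lap (cut1 : R3 → ℝ) x| ≤ C)
    (hCg : ∀ k x, |grd (cut1 : R3 → ℝ) k x| ≤ C)
    (S2 : ∫ y in slab p (2 * ε), |s y| ≤ I) :
    |∫ x, a x * (lap (et p) x * TT d ε (x 2) + 2 * grd (et p) 2 x * TT1 d ε (x 2))| ≤
      (24 * C) * A * I := by
  have hC0 : 0 ≤ C := by linarith
  have h1 := int_bound (a := a) (s := s) (t := 2 * ε) (p := p) (M := 24 * C)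
    (f := fun x => a x * (lap (et p) x * TT d ε (x 2) + 2 * grd (et p) 2 x * TT1 d ε (x 2))) hs
    (by positivity) hA
    (fun y hy => by
      by_cases hb : y ∈ Metric.ball p 2
      · have h2 : ¬ |y 2| < 2 * ε := fun h => hy ⟨hb, h⟩
        simp only [TT_zero hd hd1 hε h2, TT1_zero hd hd1 hε h2]; ring
      · simp only [et_lap_zero hb, et_grd_zero hb]; ring)
    (Eventually.of_forall fun y => by
      rw [abs_mul, mul_comm (24 * C)]
      refine mul_le_mul_of_nonneg_left ?_ (abs_nonneg _)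
      have h2 : |lap (et p) y| ≤ C := by rw [lap_tr]; exact hCl _
      have h3 : |grd (et p) 2 y| ≤ C := by rw [grd_tr]; exact hCg 2 _
      exact com_bound hC0 h2 h3 (TT_abs_le hd hd1 hε _) (TT1_abs_le hd hd1 _) hε1)
  refine h1.trans ?_
  exact mul_le_mul_of_nonneg_left S2 (by positivity)

theorem zt_abs_le {p : R3} {d ε : ℝ} (hd : 0 < d) (hd1 : d ≤ 1) (hε : 0 < ε) (x : R3) :
    |zt p d ε x| ≤ 12 * ε := by
  unfold zt ptest
  rw [abs_mul, abs_of_nonneg (et_nonneg p x)]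
  calc et p x * |TT d ε (x 2)| ≤ 1 * (12 * ε) :=
        mul_le_mul (et_le_one p x) (TT_abs_le hd hd1 hε _) (abs_nonneg _) zero_le_one
    _ = _ := one_mul _

theorem zt_zero {p : R3} {d ε : ℝ} (hd : 0 < d) (hd1 : d ≤ 1) (hε : 0 < ε) {x : R3}
    (hx : x ∉ slab p (2 * ε)) : zt p d ε x = 0 := by
  unfold zt ptest
  by_cases hb : x ∈ Metric.ball p 2
  · rw [TT_zero hd hd1 hε (fun h => hx ⟨hb, h⟩), mul_zero]
  · rw [et_zero2 hb, zero_mul]

theorem a_zt {a : R3 → ℝ} {p : R3} {d ε : ℝ} (x : R3) :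
    a x * zt p d ε x = bb p a x * zt p d ε x := by
  by_cases hx : ‖x - p‖ ≤ 3 / 2
  · have : tr (cut2 : R3 → ℝ) p x = 1 := cut2_one hx
    unfold bb
    rw [this, one_mul]
  · have : zt p d ε x = 0 := by
      unfold zt ptest
      rw [et_zero (not_le.1 hx).le, zero_mul]
    rw [this]; ring

theorem pot_split {v : R3 → ℝ} {μ : ℝ} {a : R3 → ℝ} {ga : Fin 3 → R3 → ℝ} (ha : H1 a ga)
    {u1 u2 : R3 → ℝ} {K' : ℝ}
    (hsp' : ∀ x, v x = u1 x + u2 x) (m1' : MemLp u1 (3 / 2) (volume : Measure R3))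
    (m2' : AEStronglyMeasurable u2 (volume : Measure R3))
    (b2' : ∀ᵐ x ∂(volume : Measure R3), |u2 x| ≤ K') (p : R3) (d ε : ℝ) :
    ∫ x, (v x - μ) * a x * zt p d ε x =
      (∫ x, u1 x * (bb p a x * zt p d ε x)) + ∫ x, (u2 x - μ) * (a x * zt p d ε x) := by
  have hb := bb_h1 ha p
  have hb6 := H1.memLp_six hb
  have hζL6 : MemLp (zt p d ε) 6 (volume : Measure R3) :=
    (zt_test p d ε).continuous.memLp_of_hasCompactSupport (zt_test p d ε).2
  have J1 : Integrable (fun x => u1 x * (bb p a x * zt p d ε x)) (volume : Measure R3) :=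
    integrable_v1 m1' hb6 hζL6
  have bv2 : ∀ᵐ x ∂(volume : Measure R3), |u2 x - μ| ≤ K' + |μ| := by
    filter_upwards [b2'] with x hx
    have := abs_sub (u2 x) μ
    linarith
  have J2 : Integrable (fun x => (u2 x - μ) * (a x * zt p d ε x)) (volume : Measure R3) :=
    integrable_v2 (m2'.sub aestronglyMeasurable_const) bv2 ha.mem (test_h1 (zt_test p d ε)).mem
  rw [← integral_add J1 J2]
  refine integral_congr_ae (Eventually.of_forall fun x => ?_)
  simp only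
  rw [← a_zt x, hsp' x]
  ring

theorem part_u2 {μ : ℝ} {a s : R3 → ℝ} (hs : MemLp s 2 (volume : Measure R3)) {A : ℝ}
    (hA0 : 0 ≤ A) (hA : ∀ᵐ x, |a x| ≤ A * |s x|) {p : R3} {d ε I : ℝ} (hd : 0 < d)
    (hd1 : d ≤ 1) (hε : 0 < ε) {u2 : R3 → ℝ} {K' : ℝ} (hK' : 0 ≤ K')
    (b2' : ∀ᵐ x ∂(volume : Measure R3), |u2 x| ≤ K')
    (S2 : ∫ y in slab p (2 * ε), |s y| ≤ I) :
    |∫ x, (u2 x - μ) * (a x * zt p d ε x)| ≤ (12 * ε * (K' + |μ|)) * A * I := by
  have bv2 : ∀ᵐ x ∂(volume : Measure R3), |u2 x - μ| ≤ K' + |μ| := by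
    filter_upwards [b2'] with x hx
    have := abs_sub (u2 x) μ
    linarith
  have h1 := int_bound (a := a) (s := s) (t := 2 * ε) (p := p) (M := 12 * ε * (K' + |μ|))
    (f := fun x => (u2 x - μ) * (a x * zt p d ε x)) hs (by positivity) hA
    (fun y hy => by simp only [zt_zero hd hd1 hε hy]; ring)
    (by
      filter_upwards [bv2] with y hy
      rw [abs_mul, abs_mul]
      calc |u2 y - μ| * (|a y| * |zt p d ε y|) ≤ (K' + |μ|) * (|a y| * (12 * ε)) := by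
            refine mul_le_mul hy ?_ (by positivity) (by positivity)
            exact mul_le_mul_of_nonneg_left (zt_abs_le hd hd1 hε y) (abs_nonneg _)
        _ = _ := by ring)
  refine h1.trans ?_
  exact mul_le_mul_of_nonneg_left S2 (by positivity)

theorem amgm {b r : ℝ} (hr : 0 < r) : |b| ≤ (1 / (2 * r)) * b ^ 2 + r / 2 := by
  have h2 : 0 ≤ (|b| - r) ^ 2 := sq_nonneg _
  have h3 : |b| * (2 * r) ≤ b ^ 2 + r ^ 2 := by nlinarith [sq_abs b]
  have h4 : |b| ≤ (b ^ 2 + r ^ 2) / (2 * r) := by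
    rw [le_div_iff₀ (by positivity)]; exact h3
  refine h4.trans (le_of_eq ?_)
  field_simp

theorem part_u1 {a : R3 → ℝ} {ga : Fin 3 → R3 → ℝ} (ha : H1 a ga) {p : R3} {d ε : ℝ}
    (hd : 0 < d) (hd1 : d ≤ 1) (hε : 0 < ε) (hε1 : ε ≤ 1 / 4) {u1 : R3 → ℝ} {δ' : ℝ}
    (m1' : MemLp u1 (3 / 2) (volume : Measure R3))
    (s1' : eLpNorm u1 (3 / 2) (volume : Measure R3) ≤ ENNReal.ofReal δ') (hδp : 0 ≤ δ')
    {r Y : ℝ} (hr0 : 0 < r) (hX : ∫ x, ∑ k, gbb p a ga k x ^ 2 ≤ (r * r) * Y) :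
    |∫ x, u1 x * (bb p a x * zt p d ε x)| ≤
      6 * ε * r * (δ' * (3 * (CSob : ℝ) ^ 2 * Y) + 4 * δ') := by
  have hb := bb_h1 ha p
  have hb6 := H1.memLp_six hb
  have hv := v1_form hδp m1' s1' hb
  obtain ⟨w1, w2⟩ := int_v1_ball hδp m1' s1' (p := p)
  have k1 : Integrable (fun x => |u1 x| * bb p a x ^ 2) (volume : Measure R3) := by
    refine (integrable_v1 m1' hb6 hb6).norm.congr (Eventually.of_forall fun x => ?_)
    simp only [norm_mul, Real.norm_eq_abs]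
    rw [← abs_mul (bb p a x), abs_mul_self]; ring
  have k2 : Integrable ((slab p 2).indicator fun x => |u1 x|) (volume : Measure R3) := by
    rw [integrable_indicator_iff (measurableSet_slab p 2)]
    exact w1.abs
  have hbd : ‖∫ x, u1 x * (bb p a x * zt p d ε x)‖ ≤
      ∫ x, 12 * ε * ((1 / (2 * r)) * (|u1 x| * bb p a x ^ 2) +
        (r / 2) * (slab p 2).indicator (fun x => |u1 x|) x) := by
    refine norm_integral_le_of_norm_le (((k1.const_mul _).add (k2.const_mul _)).const_mul _) ?_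
    refine Eventually.of_forall fun x => ?_
    by_cases hx : x ∈ slab p 2
    · rw [indicator_of_mem hx, norm_mul, norm_mul, Real.norm_eq_abs, Real.norm_eq_abs,
        Real.norm_eq_abs]
      calc |u1 x| * (|bb p a x| * |zt p d ε x|)
          ≤ |u1 x| * (((1 / (2 * r)) * bb p a x ^ 2 + r / 2) * (12 * ε)) := by
            refine mul_le_mul_of_nonneg_left ?_ (abs_nonneg _)
            exact mul_le_mul (amgm hr0) (zt_abs_le hd hd1 hε x) (abs_nonneg _) (by positivity)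
        _ = _ := by ring
    · have hx2 : x ∉ slab p (2 * ε) := fun h =>
        hx ⟨h.1, lt_trans (show |x 2| < 2 * ε from h.2) (show 2 * ε < 2 by linarith)⟩
      rw [zt_zero hd hd1 hε hx2, mul_zero, mul_zero, norm_zero, indicator_of_notMem hx]
      positivity
  have e1 : ∫ x, 12 * ε * ((1 / (2 * r)) * (|u1 x| * bb p a x ^ 2) +
        (r / 2) * (slab p 2).indicator (fun x => |u1 x|) x) =
      12 * ε * ((1 / (2 * r)) * (∫ x, |u1 x| * bb p a x ^ 2) +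
        (r / 2) * ∫ x in slab p 2, |u1 x|) := by
    rw [integral_const_mul, integral_add (k1.const_mul _) (k2.const_mul _), integral_const_mul,
      integral_const_mul, integral_indicator (measurableSet_slab p 2)]
  rw [e1, Real.norm_eq_abs] at hbd
  refine hbd.trans ?_
  set X := ∫ x, ∑ k, gbb p a ga k x ^ 2 with hXdef
  have hX3 : δ' * (3 * (CSob : ℝ) ^ 2 * X) ≤ δ' * (3 * (CSob : ℝ) ^ 2 * ((r * r) * Y)) := by
    refine mul_le_mul_of_nonneg_left (mul_le_mul_of_nonneg_left hX (by positivity)) hδp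
  have h5 : (1 / (2 * r)) * ∫ x, |u1 x| * bb p a x ^ 2 ≤
      (1 / (2 * r)) * (δ' * (3 * (CSob : ℝ) ^ 2 * ((r * r) * Y))) :=
    mul_le_mul_of_nonneg_left (hv.trans hX3) (by positivity)
  have h6 : (r / 2) * ∫ x in slab p 2, |u1 x| ≤ (r / 2) * (4 * δ') :=
    mul_le_mul_of_nonneg_left w2 (by positivity)
  have h7 : 12 * ε * ((1 / (2 * r)) * (∫ x, |u1 x| * bb p a x ^ 2) +
      (r / 2) * ∫ x in slab p 2, |u1 x|) ≤ 12 * ε * ((1 / (2 * r)) *
      (δ' * (3 * (CSob : ℝ) ^ 2 * ((r * r) * Y))) +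
      (r / 2) * (4 * δ')) :=
    mul_le_mul_of_nonneg_left (add_le_add h5 h6) (by positivity)
  refine h7.trans (le_of_eq ?_)
  field_simp
  ring

theorem a_sq_le {a s : R3 → ℝ} {ga : Fin 3 → R3 → ℝ} (ha : H1 a ga)
    (hs : MemLp s 2 (volume : Measure R3)) {A : ℝ}
    (hA : ∀ᵐ x, |a x| ≤ A * |s x|) {p : R3} (hp : p 2 = 0) {m e C₁ : ℝ} (hm : 0 < m)
    (upb : ∀ t ∈ Set.Ioc (0 : ℝ) 2, ∫ y in slab p t, s y ^ 2 ≤ m * (C₁ * t ^ 3 + e)) :
    ∫ x in Metric.ball p 2, a x ^ 2 ≤ A ^ 2 * (m * (8 * |C₁| + |e|)) := by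
  have h1 := upb 2 ⟨by norm_num, le_rfl⟩
  rw [slab_two hp] at h1
  have h2 : ∫ x in Metric.ball p 2, a x ^ 2 ≤ ∫ x in Metric.ball p 2, A ^ 2 * s x ^ 2 := by
    refine integral_mono_ae ha.mem.integrable_sq.integrableOn
      (hs.integrable_sq.integrableOn.const_mul _) ?_
    have := ae_restrict_of_ae (s := Metric.ball p 2) hA
    filter_upwards [this] with x hx
    calc a x ^ 2 = |a x| ^ 2 := (sq_abs _).symm
      _ ≤ (A * |s x|) ^ 2 := pow_le_pow_left₀ (abs_nonneg _) hx 2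
      _ = A ^ 2 * s x ^ 2 := by rw [mul_pow, sq_abs]
  rw [integral_const_mul] at h2
  refine h2.trans (mul_le_mul_of_nonneg_left (h1.trans ?_) (sq_nonneg _))
  refine mul_le_mul_of_nonneg_left ?_ hm.le
  have := le_abs_self e
  have := le_abs_self C₁
  nlinarith

theorem main_ineq {v : R3 → ℝ} {μ : ℝ} {a s : R3 → ℝ} {ga : Fin 3 → R3 → ℝ}
    (ha : H1 a ga) (hs : MemLp s 2 (volume : Measure R3))
    (eqa : ∀ h k, H1 h k → qf v μ a ga h k = 0)
    {A c ρ : ℝ} (hA0 : 0 ≤ A) (hc : 0 < c) (hA : ∀ᵐ x, |a x| ≤ A * |s x|)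
    (low : ∀ᵐ x, ρ < ‖x‖ → c * |s x| ≤ a x)
    {p : R3} (hp : p 2 = 0) (hpn : ρ + 2 < ‖p‖) {m e c₁ C₁ : ℝ} (hm : 0 < m) (hc₁ : 0 < c₁)
    (lowb : ∀ᵐ y, y ∈ Metric.ball p 2 → c₁ * m * (y 2) ^ 2 ≤ s y ^ 2)
    (upb : ∀ t ∈ Set.Ioc (0 : ℝ) 2, ∫ y in slab p t, s y ^ 2 ≤ m * (C₁ * t ^ 3 + e))
    -- first splitting
    {v1 v2 : R3 → ℝ} {K δ C : ℝ}
    (hsp : ∀ x, v x = v1 x + v2 x) (m1 : MemLp v1 (3 / 2) (volume : Measure R3))
    (s1 : eLpNorm v1 (3 / 2) (volume : Measure R3) ≤ ENNReal.ofReal δ)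
    (m2 : AEStronglyMeasurable v2 (volume : Measure R3)) (hK : 0 ≤ K)
    (b2 : ∀ᵐ x ∂(volume : Measure R3), |v2 x| ≤ K) (hδ : 0 ≤ δ)
    (hδ' : δ * (3 * (CSob : ℝ) ^ 2) ≤ 1 / 4)
    (hC1 : 1 ≤ C) (hCl : ∀ x, |lap (cut1 : R3 → ℝ) x| ≤ C)
    (hCg : ∀ k x, |grd (cut1 : R3 → ℝ) k x| ≤ C)
    (hCc : ∀ k x, |grd (cut2 : R3 → ℝ) k x| ≤ C)
    -- second splitting
    {u1 u2 : R3 → ℝ} {K' δ' : ℝ}
    (hsp' : ∀ x, v x = u1 x + u2 x) (m1' : MemLp u1 (3 / 2) (volume : Measure R3))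
    (s1' : eLpNorm u1 (3 / 2) (volume : Measure R3) ≤ ENNReal.ofReal δ')
    (m2' : AEStronglyMeasurable u2 (volume : Measure R3)) (hK' : 0 ≤ K')
    (b2' : ∀ᵐ x ∂(volume : Measure R3), |u2 x| ≤ K') (hδp : 0 ≤ δ')
    {d ε : ℝ} (hd : 0 < d) (hd1 : d ≤ 1) (hε : 0 < ε) (hε1 : ε ≤ 1 / 4) :
    c * Real.sqrt c₁ * (5 / 32) * ε ≤ RR A C C₁ K' μ δ' (6 * C ^ 2 + 4 * (K + |μ|)) d ε e := by
  set r := Real.sqrt m with hr
  have hr0 : 0 < r := Real.sqrt_pos.2 hm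
  have hr2 : r * r = m := Real.mul_self_sqrt hm.le
  set q := Real.sqrt c₁ with hq
  have hq0 : 0 < q := Real.sqrt_pos.2 hc₁
  have hq2 : q * q = c₁ := Real.mul_self_sqrt hc₁.le
  set CC := 6 * C ^ 2 + 4 * (K + |μ|) with hCC
  have hCC0 : 0 ≤ CC := by positivity
  have E := test_eq ha eqa (zt_test p d ε)
  rw [int_lap_split ha p hε, pot_split ha hsp' m1' m2' b2' p d ε] at E
  have S1 : ∫ y in slab p (d * ε), |s y| ≤ r * MM C₁ (d * ε) e :=
    int_slab_le hs (by positivity) hm (upb _ ⟨by positivity, by nlinarith⟩)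
  have S2 : ∫ y in slab p (2 * ε), |s y| ≤ r * MM C₁ (2 * ε) e :=
    int_slab_le hs (by positivity) hm (upb _ ⟨by positivity, by linarith⟩)
  have lowb' : ∀ᵐ y, y ∈ Metric.ball p 2 → (q * q) * (r * r) * (y 2) ^ 2 ≤ s y ^ 2 := by
    rw [hq2, hr2]; exact lowb
  have LA := part_alp ha hc low hp hpn hq0 hr0 lowb' hε hε1
  have LB := part_bet hs hA0 hA (p := p) hd hε S1
  have L1 := part_com hs hA0 hA (p := p) hd hd1 hε hε1 hC1 hCl hCg S2
  have L2 := part_u2 (μ := μ) hs hA0 hA (p := p) hd hd1 hε hK' b2' S2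
  have X1 := cacc ha eqa hsp m1 s1 m2 b2 hδ hδ' hCc p
  have hJ := a_sq_le ha hs hA hp hm upb
  have X2 : ∫ x, ∑ k, gbb p a ga k x ^ 2 ≤ (r * r) * (CC * (A ^ 2 * (8 * |C₁| + |e|))) := by
    refine (X1.trans (mul_le_mul_of_nonneg_left hJ hCC0)).trans (le_of_eq ?_)
    rw [hr2]; ring
  have L3 := part_u1 ha hd hd1 hε hε1 m1' s1' hδp hr0 X2
  have key : c * q * r * (5 / 32) * ε ≤
      (2 / (d * ε)) * A * (r * MM C₁ (d * ε) e) + (24 * C) * A * (r * MM C₁ (2 * ε) e) +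
      2 * ((12 * ε * (K' + |μ|)) * A * (r * MM C₁ (2 * ε) e)) +
      2 * (6 * ε * r * (δ' * (3 * (CSob : ℝ) ^ 2 * (CC * (A ^ 2 * (8 * |C₁| + |e|)))) + 4 * δ')) := by
    have b1 := (abs_le.1 LB).2
    have b2 := (abs_le.1 L1).1
    have b3 := (abs_le.1 L3).2
    have b4 := (abs_le.1 L2).2
    linarith
  have key2 : r * (c * q * (5 / 32) * ε) ≤ r * RR A C C₁ K' μ δ' CC d ε e := by
    refine le_trans (le_of_eq ?_) (key.trans (le_of_eq ?_))
    · ring
    · unfold RR; ring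
  exact le_of_mul_le_mul_left key2 hr0

/-! ### limit `k → ∞` -/

theorem exists_small {X c : ℝ} (hX : 0 ≤ X) (hc : 0 < c) :
    ∃ d, 0 < d ∧ d ≤ 1 / 4 ∧ X * d ≤ c := by
  refine ⟨min (1 / 4) (c / (X + 1)), lt_min (by norm_num) (by positivity), min_le_left _ _, ?_⟩
  have h1 : min (1 / 4) (c / (X + 1)) ≤ c / (X + 1) := min_le_right _ _
  calc X * min (1 / 4) (c / (X + 1)) ≤ X * (c / (X + 1)) := mul_le_mul_of_nonneg_left h1 hX
    _ = (X / (X + 1)) * c := by field_simp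
    _ ≤ 1 * c := by
        refine mul_le_mul_of_nonneg_right ?_ hc.le
        rw [div_le_one (by positivity)]; linarith
    _ = c := one_mul c

theorem continuous_MM (C₁ t : ℝ) : Continuous fun E : ℝ => MM C₁ t E := by
  unfold MM
  exact continuous_const.add (continuous_abs.div_const _)

theorem continuous_RR (A C C₁ K' μ δ' CC d ε : ℝ) :
    Continuous fun E : ℝ => RR A C C₁ K' μ δ' CC d ε E := by
  unfold RR
  have h1 := continuous_MM C₁ (d * ε)
  have h2 := continuous_MM C₁ (2 * ε)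
  have h3 : Continuous fun E : ℝ => |E| := continuous_abs
  fun_prop

theorem RR_zero (A C C₁ K' μ δ' CC : ℝ) {d ε : ℝ} (hd : 0 < d) (hε : 0 < ε) :
    RR A C C₁ K' μ δ' CC d ε 0 = (2 * A * (16 + |C₁| / 2) * d +
      96 * C * A * (16 + |C₁| / 2) * ε + 96 * (K' + |μ|) * A * (16 + |C₁| / 2) * ε ^ 2 +
      12 * (24 * (CSob : ℝ) ^ 2 * CC * A ^ 2 * |C₁| + 4) * δ') * ε := by
  unfold RR MM
  rw [abs_zero, zero_div, zero_div, add_zero, add_zero, add_zero]
  field_simp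
  ring

/-- **B8-2**: contradiction at infinity. -/
theorem ks_contradiction {v : R3 → ℝ} {μ : ℝ} {a s : R3 → ℝ} {ga : Fin 3 → R3 → ℝ}
    (hv : MemV v) (ha : H1 a ga) (hs : MemLp s 2 (volume : Measure R3)) (hs0 : ∀ᵐ x, 0 ≤ s x)
    (eqa : ∀ h k, H1 h k → qf v μ a ga h k = 0)
    (A c ρ : ℝ) (hc : 0 < c) (hA : ∀ᵐ x, |a x| ≤ A * s x)
    (low : ∀ᵐ x, ρ < ‖x‖ → c * s x ≤ a x)
    (p : ℕ → R3) (hp : ∀ k, p k 2 = 0) (hinf : Tendsto (fun k => ‖p k‖) atTop atTop)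
    (m e : ℕ → ℝ) (hm : ∀ k, 0 < m k) (he : Tendsto e atTop (𝓝 0)) (c₁ C₁ : ℝ) (hc₁ : 0 < c₁)
    (lowb : ∀ k, ∀ᵐ y, y ∈ Metric.ball (p k) 2 → c₁ * m k * (y 2) ^ 2 ≤ s y ^ 2)
    (upb : ∀ k, ∀ t ∈ Set.Ioc (0 : ℝ) 2,
      ∫ y in Metric.ball (p k) 2 ∩ {y | |y 2| < t}, s y ^ 2 ≤ m k * (C₁ * t ^ 3 + e k)) :
    False := by
  have hA' : ∀ᵐ x, |a x| ≤ |A| * |s x| := by
    filter_upwards [hA, hs0] with x h1 h2
    refine h1.trans ?_
    rw [abs_of_nonneg h2]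
    exact mul_le_mul_of_nonneg_right (le_abs_self A) h2
  have low' : ∀ᵐ x, ρ < ‖x‖ → c * |s x| ≤ a x := by
    filter_upwards [low, hs0] with x h1 h2 h3
    rw [abs_of_nonneg h2]; exact h1 h3
  have hA0 : 0 ≤ |A| := abs_nonneg A
  set B := |A| with hB
  set c₅ := c * Real.sqrt c₁ * (5 / 32) with hc₅
  have hc₅0 : 0 < c₅ := by
    have := Real.sqrt_pos.2 hc₁
    positivity
  have h8 : 0 < c₅ / 8 := by positivity
  obtain ⟨C, hC1, hCl, hCg, hCc⟩ := exists_cut_bound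
  have hC0 : 0 ≤ C := by linarith
  obtain ⟨δ, hδ, -, hδ'⟩ := exists_small (X := 3 * (CSob : ℝ) ^ 2) (by positivity)
    (show (0 : ℝ) < 1 / 4 by norm_num)
  rw [mul_comm] at hδ'
  obtain ⟨v1, v2, K, hsp, m1, s1, m2, hK, b2⟩ := vsplit hv hδ
  set CC := 6 * C ^ 2 + 4 * (K + |μ|) with hCC
  have hCC0 : 0 ≤ CC := by positivity
  obtain ⟨δ', hδp, -, hδs⟩ := exists_small
    (X := 12 * (24 * (CSob : ℝ) ^ 2 * CC * B ^ 2 * |C₁| + 4)) (by positivity) h8
  obtain ⟨u1, u2, K', hsp', m1', s1', m2', hK', b2'⟩ := vsplit hv hδp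
  obtain ⟨d, hd, hd4, hds⟩ := exists_small (X := 2 * B * (16 + |C₁| / 2)) (by positivity) h8
  obtain ⟨ε, hε, hε4, hεs⟩ := exists_small
    (X := 96 * C * B * (16 + |C₁| / 2) + 96 * (K' + |μ|) * B * (16 + |C₁| / 2))
    (by positivity) h8
  have hev : ∀ᶠ k in atTop, c₅ * ε ≤ RR B C C₁ K' μ δ' CC d ε (e k) := by
    filter_upwards [hinf.eventually_gt_atTop (ρ + 2)] with k hk
    exact main_ineq ha hs eqa hA0 hc hA' low' (hp k) hk (hm k) hc₁ (lowb k) (upb k) hsp m1 s1 m2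
      hK b2 hδ.le hδ' hC1 hCl hCg hCc hsp' m1' s1' m2' hK' b2' hδp.le hd (by linarith) hε hε4
  have hlim : Tendsto (fun k => RR B C C₁ K' μ δ' CC d ε (e k)) atTop
      (𝓝 (RR B C C₁ K' μ δ' CC d ε 0)) :=
    ((continuous_RR B C C₁ K' μ δ' CC d ε).tendsto 0).comp he
  have hle := ge_of_tendsto hlim hev
  rw [RR_zero B C C₁ K' μ δ' CC hd hε] at hle
  have hle2 := le_of_mul_le_mul_right hle hε
  have hsq : 96 * (K' + |μ|) * B * (16 + |C₁| / 2) * ε ^ 2 ≤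
      96 * (K' + |μ|) * B * (16 + |C₁| / 2) * ε := by
    refine mul_le_mul_of_nonneg_left ?_ (by positivity)
    nlinarith
  linarith

end

end Vale.Agent.P363.H917
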