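import Vale.Agent.P363.H917.SobolevH1

/-! Splitting of a potential in `L^{3/2} + L^∞` with small `L^{3/2}` part; form bounds. -/

namespace Vale.Agent.P363.H917

open MeasureTheory Filter Topology
open Vale.Agent.P363.Stmt (R3 MemV LpR3)
open Vale.Agent.P363.R.Sob
open Vale.Agent.P363.R.KS
open scoped ContDiff ENNReal NNReal

noncomputable section

/-- the splitting. -/
theorem vsplit {v : R3 → ℝ} (hv : MemV v) {δ : ℝ} (hδ : 0 < δ) :
    ∃ (v1 v2 : R3 → ℝ) (K : ℝ), (∀ x, v x = v1 x + v2 x) ∧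
      MemLp v1 (3 / 2) (volume : Measure R3) ∧
      eLpNorm v1 (3 / 2) (volume : Measure R3) ≤ ENNReal.ofReal δ ∧
      AEStronglyMeasurable v2 (volume : Measure R3) ∧ 0 ≤ K ∧
      ∀ᵐ x ∂(volume : Measure R3), |v2 x| ≤ K := by
  obtain ⟨a, b, ha, hb, rfl⟩ := hv
  have ha : MemLp a (3 / 2) (volume : Measure R3) := ha
  have hb : MemLp b ⊤ (volume : Measure R3) := hb
  set f := ha.1.mk a with hf
  have hfa : a =ᵐ[volume] f := ha.1.ae_eq_mk
  have hfm : StronglyMeasurable f := ha.1.stronglyMeasurable_mk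
  have hfL : MemLp f (3 / 2) (volume : Measure R3) := ha.ae_eq hfa
  obtain ⟨M, hM0, hM⟩ := hfL.eLpNorm_indicator_norm_ge_pos_le hfm hδ
  set S : Set R3 := {x | M ≤ ‖f x‖₊} with hS
  have hSm : MeasurableSet S := by
    refine measurableSet_le measurable_const ?_
    exact (hfm.nnnorm.measurable).coe_nnreal_real
  set v1 := S.indicator f with hv1
  have hv1L : MemLp v1 (3 / 2) (volume : Measure R3) := hfL.indicator hSm
  obtain ⟨Kb, hKb⟩ : ∃ Kb : ℝ, ∀ᵐ x ∂(volume : Measure R3), |b x| ≤ Kb := by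
    refine ⟨(eLpNorm b ⊤ (volume : Measure R3)).toReal, ?_⟩
    have := ae_le_eLpNormEssSup (f := b) (μ := (volume : Measure R3))
    filter_upwards [this] with x hx
    rw [← Real.norm_eq_abs, ← toReal_enorm]
    refine ENNReal.toReal_mono hb.2.ne ?_
    rwa [eLpNorm_exponent_top]
  refine ⟨v1, fun x => a x - v1 x + b x, M + |Kb|, ?_, hv1L, hM, ?_, by positivity, ?_⟩
  · intro x
    simp only [Pi.add_apply]
    ring
  · exact (ha.1.sub hv1L.1).add hb.1
  · filter_upwards [hKb, hfa] with x hx hx2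
    have h1 : |a x - v1 x| ≤ M := by
      rw [hx2, hv1]
      by_cases hxS : x ∈ S
      · rw [Set.indicator_of_mem hxS]; simp [hM0.le]
      · rw [Set.indicator_of_notMem hxS, sub_zero]
        have : ¬ (M ≤ ‖f x‖₊) := hxS
        rw [not_le, coe_nnnorm, Real.norm_eq_abs] at this
        exact this.le
    calc |a x - v1 x + b x| ≤ |a x - v1 x| + |b x| := abs_add_le _ _
      _ ≤ M + |Kb| := add_le_add h1 (hx.trans (le_abs_self _))

theorem memLp_two_toReal_sq {g : R3 → ℝ} (hg : MemLp g 2 (volume : Measure R3)) :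
    (eLpNorm g 2 (volume : Measure R3)).toReal ^ 2 = ∫ x, g x ^ 2 := by
  have h := hg.eLpNorm_eq_integral_rpow_norm (by norm_num) (by norm_num)
  rw [h]
  have h2 : (2 : ℝ≥0∞).toReal = (2 : ℝ) := by norm_num
  rw [h2]
  have h3 : ∀ x, ‖g x‖ ^ (2 : ℝ) = g x ^ 2 := by
    intro x
    rw [Real.rpow_two, Real.norm_eq_abs, sq_abs]
  simp only [h3]
  have h4 : 0 ≤ ∫ x, g x ^ 2 := integral_nonneg fun x => sq_nonneg _
  rw [ENNReal.toReal_ofReal (by positivity)]
  rw [← Real.rpow_natCast, ← Real.rpow_mul h4]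
  norm_num

/-- real form of the Sobolev inequality. -/
theorem sobolev_real {f : R3 → ℝ} {g : Fin 3 → R3 → ℝ} (h : H1 f g) :
    (eLpNorm f 6 (volume : Measure R3)).toReal ^ 2 ≤
      3 * (CSob : ℝ) ^ 2 * ∫ x, ∑ k, g k x ^ 2 := by
  have h1 := sobolev h
  have hfin : ∑ k, eLpNorm (g k) 2 (volume : Measure R3) ≠ ⊤ :=
    (ENNReal.sum_lt_top.2 fun k _ => (h.gmem k).2).ne
  have h2 : (eLpNorm f 6 (volume : Measure R3)).toReal ≤
      CSob * ∑ k, (eLpNorm (g k) 2 (volume : Measure R3)).toReal := by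
    have := ENNReal.toReal_mono (ENNReal.mul_ne_top ENNReal.coe_ne_top hfin) h1
    rwa [ENNReal.toReal_mul, ENNReal.coe_toReal, ENNReal.toReal_sum
      (fun k _ => (h.gmem k).2.ne)] at this
  have h3 : (∑ k, (eLpNorm (g k) 2 (volume : Measure R3)).toReal) ^ 2 ≤
      3 * ∑ k, (eLpNorm (g k) 2 (volume : Measure R3)).toReal ^ 2 := by
    have := sq_sum_le_card_mul_sum_sq (s := (Finset.univ : Finset (Fin 3)))
      (f := fun k => (eLpNorm (g k) 2 (volume : Measure R3)).toReal)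
    simpa using this
  have h4 : ∑ k, (eLpNorm (g k) 2 (volume : Measure R3)).toReal ^ 2 =
      ∫ x, ∑ k, g k x ^ 2 := by
    rw [integral_finset_sum]
    · exact Finset.sum_congr rfl fun k _ => memLp_two_toReal_sq (h.gmem k)
    · intro k _
      exact (h.gmem k).integrable_sq
  have h5 : 0 ≤ (eLpNorm f 6 (volume : Measure R3)).toReal := ENNReal.toReal_nonneg
  calc (eLpNorm f 6 (volume : Measure R3)).toReal ^ 2
      ≤ (CSob * ∑ k, (eLpNorm (g k) 2 (volume : Measure R3)).toReal) ^ 2 := by gcongr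
    _ = (CSob : ℝ) ^ 2 * (∑ k, (eLpNorm (g k) 2 (volume : Measure R3)).toReal) ^ 2 := by ring
    _ ≤ (CSob : ℝ) ^ 2 * (3 * ∑ k, (eLpNorm (g k) 2 (volume : Measure R3)).toReal ^ 2) := by
        gcongr
    _ = _ := by rw [h4]; ring

instance holder663 : ENNReal.HolderTriple 6 6 3 := ⟨by
  rw [← ENNReal.toReal_eq_toReal_iff' (by simp) (by simp)]
  rw [ENNReal.toReal_add (by simp) (by simp)]
  simp only [ENNReal.toReal_inv, ENNReal.toReal_ofNat]
  norm_num⟩

instance holder3231 : ENNReal.HolderTriple (3 / 2) 3 1 := ⟨by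
  have h0 : (3 / 2 : ℝ≥0∞) ≠ 0 := by simp
  have h1 : (3 / 2 : ℝ≥0∞) ≠ ⊤ := by
    rw [ENNReal.div_eq_inv_mul]
    exact ENNReal.mul_ne_top (by simp) (by simp)
  rw [← ENNReal.toReal_eq_toReal_iff' (ENNReal.add_ne_top.2 ⟨ENNReal.inv_ne_top.2 h0, by simp⟩)
    (by simp)]
  rw [ENNReal.toReal_add (ENNReal.inv_ne_top.2 h0) (by simp)]
  simp only [ENNReal.toReal_inv, ENNReal.toReal_ofNat, ENNReal.toReal_div, ENNReal.toReal_one]
  norm_num⟩

theorem eLpNorm_mul_three {f h : R3 → ℝ} (hf : MemLp f 6 (volume : Measure R3))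
    (hh : MemLp h 6 (volume : Measure R3)) :
    eLpNorm (fun x => f x * h x) 3 (volume : Measure R3) ≤
      eLpNorm f 6 (volume : Measure R3) * eLpNorm h 6 (volume : Measure R3) := by
  have := eLpNorm_le_eLpNorm_mul_eLpNorm_of_nnnorm (p := 6) (q := 6) (r := 3) hf.1 hh.1
    (fun a b => a * b) 1 (Eventually.of_forall fun x => by simp)
  simpa using this

theorem memLp_mul_three {f h : R3 → ℝ} (hf : MemLp f 6 (volume : Measure R3))
    (hh : MemLp h 6 (volume : Measure R3)) :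
    MemLp (fun x => f x * h x) 3 (volume : Measure R3) :=
  ⟨hf.1.mul hh.1, (eLpNorm_mul_three hf hh).trans_lt (ENNReal.mul_lt_top hf.2 hh.2)⟩

theorem eLpNorm_v_mul_one {v1 F : R3 → ℝ} (hv : MemLp v1 (3 / 2) (volume : Measure R3))
    (hF : MemLp F 3 (volume : Measure R3)) :
    eLpNorm (fun x => v1 x * F x) 1 (volume : Measure R3) ≤
      eLpNorm v1 (3 / 2) (volume : Measure R3) * eLpNorm F 3 (volume : Measure R3) := by
  have := eLpNorm_le_eLpNorm_mul_eLpNorm_of_nnnorm (p := 3 / 2) (q := 3) (r := 1) hv.1 hF.1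
    (fun a b => a * b) 1 (Eventually.of_forall fun x => by simp)
  simpa using this

/-- `v₁ f h` is integrable for `v₁ ∈ L^{3/2}`, `f, h ∈ L⁶`. -/
theorem integrable_v1 {v1 f h : R3 → ℝ} (hv : MemLp v1 (3 / 2) (volume : Measure R3))
    (hf : MemLp f 6 (volume : Measure R3)) (hh : MemLp h 6 (volume : Measure R3)) :
    Integrable (fun x => v1 x * (f x * h x)) (volume : Measure R3) := by
  rw [← memLp_one_iff_integrable]
  refine ⟨hv.1.mul (hf.1.mul hh.1), ?_⟩
  exact (eLpNorm_v_mul_one hv (memLp_mul_three hf hh)).trans_lt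
    (ENNReal.mul_lt_top hv.2 (memLp_mul_three hf hh).2)

/-- `v₂ f h` is integrable for bounded `v₂`, `f, h ∈ L²`. -/
theorem integrable_v2 {v2 f h : R3 → ℝ} {K : ℝ} (hv : AEStronglyMeasurable v2 (volume : Measure R3))
    (hK : ∀ᵐ x ∂(volume : Measure R3), |v2 x| ≤ K)
    (hf : MemLp f 2 (volume : Measure R3)) (hh : MemLp h 2 (volume : Measure R3)) :
    Integrable (fun x => v2 x * (f x * h x)) (volume : Measure R3) := by
  have h1 : Integrable (fun x => f x * h x) (volume : Measure R3) := hf.integrable_mul hh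
  exact h1.bdd_mul hv hK

/-- `v f h` is integrable for `v ∈ L^{3/2} + L^∞`, `f, h ∈ H¹`. -/
theorem integrable_v {v f h : R3 → ℝ} {g k : Fin 3 → R3 → ℝ} (hv : MemV v) (hf : H1 f g)
    (hh : H1 h k) : Integrable (fun x => v x * (f x * h x)) (volume : Measure R3) := by
  obtain ⟨v1, v2, K, e, m1, -, m2, -, b2⟩ := vsplit hv one_pos
  have := (integrable_v1 m1 (H1.memLp_six hf) (H1.memLp_six hh)).add
    (integrable_v2 m2 b2 hf.mem hh.mem)
  refine this.congr (Eventually.of_forall fun x => ?_)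
  simp only [Pi.add_apply]
  rw [e x]; ring

/-- the small form bound. -/
theorem v1_form {v1 b : R3 → ℝ} {g : Fin 3 → R3 → ℝ} {δ : ℝ} (hδ : 0 ≤ δ)
    (hv : MemLp v1 (3 / 2) (volume : Measure R3))
    (hs : eLpNorm v1 (3 / 2) (volume : Measure R3) ≤ ENNReal.ofReal δ) (hb : H1 b g) :
    ∫ x, |v1 x| * b x ^ 2 ≤ δ * (3 * (CSob : ℝ) ^ 2 * ∫ x, ∑ k, g k x ^ 2) := by
  have h6 := H1.memLp_six hb
  have h1 : ∫ x, |v1 x| * b x ^ 2 = (eLpNorm (fun x => v1 x * (b x * b x)) 1
      (volume : Measure R3)).toReal := by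
    rw [eLpNorm_one_eq_lintegral_enorm, ← integral_norm_eq_lintegral_enorm
      (integrable_v1 hv h6 h6).1]
    refine integral_congr_ae (Eventually.of_forall fun x => ?_)
    simp only [norm_mul, Real.norm_eq_abs]
    rw [← abs_mul (b x), abs_mul_self]
    ring
  have h2 : eLpNorm (fun x => v1 x * (b x * b x)) 1 (volume : Measure R3) ≤
      ENNReal.ofReal δ * (eLpNorm b 6 (volume : Measure R3) * eLpNorm b 6 volume) :=
    (eLpNorm_v_mul_one hv (memLp_mul_three h6 h6)).trans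
      (mul_le_mul' hs (eLpNorm_mul_three h6 h6))
  have h3 := ENNReal.toReal_mono (ENNReal.mul_ne_top ENNReal.ofReal_ne_top
    (ENNReal.mul_ne_top h6.2.ne h6.2.ne)) h2
  rw [ENNReal.toReal_mul, ENNReal.toReal_mul, ENNReal.toReal_ofReal hδ] at h3
  rw [h1]
  refine h3.trans ?_
  have h4 := sobolev_real hb
  rw [← sq]
  gcongr

end

end Vale.Agent.P363.H917
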